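import Vale.Agent.P166.Conc.Frame

/-!
The spectrum of `Yᵀ diag(a) Y` is close to `a`, and the frame pressure with an invariant rotation
is the pressure of that spectrum.
-/

open MeasureTheory ProbabilityTheory Filter Topology Matrix Finset
open scoped Matrix.Norms.L2Operator

namespace Vale.Agent.P166

variable {M N : ℕ}

theorem sym_spectral {n : ℕ} (A : Matrix (Fin n) (Fin n) ℝ) (hA : Aᵀ = A) :
    ∃ (Q : Matrix (Fin n) (Fin n) ℝ) (x : Fin n → ℝ), Qᵀ * Q = 1 ∧ Q * Qᵀ = 1 ∧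
      A = Qᵀ * diagonal x * Q ∧ ∀ j, x j = (Q * A * Qᵀ) j j := by
  have hH : A.IsHermitian := by
    rw [Matrix.IsHermitian, Matrix.conjTranspose_eq_transpose_of_trivial, hA]
  set U : Matrix (Fin n) (Fin n) ℝ := (hH.eigenvectorUnitary : Matrix (Fin n) (Fin n) ℝ)
  have hU : Uᵀ * U = 1 := by
    have := Unitary.coe_star_mul_self hH.eigenvectorUnitary
    simpa [Matrix.star_eq_conjTranspose, Matrix.conjTranspose_eq_transpose_of_trivial] using this
  have hU' : U * Uᵀ = 1 := mul_eq_one_comm.1 hU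
  have hspec : A = U * diagonal hH.eigenvalues * Uᵀ := by
    conv_lhs => rw [hH.spectral_theorem, Unitary.conjStarAlgAut_apply]
    simp [Matrix.star_eq_conjTranspose, Matrix.conjTranspose_eq_transpose_of_trivial, U]
  refine ⟨Uᵀ, hH.eigenvalues, by simpa using hU', by simpa using hU, by rw [Matrix.transpose_transpose]; exact hspec,
    fun j => ?_⟩
  have h : Uᵀ * A * U = diagonal hH.eigenvalues := by
    conv_lhs => rw [hspec]
    rw [Matrix.mul_assoc, Matrix.mul_assoc (U * diagonal hH.eigenvalues), hU, Matrix.mul_one,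
      ← Matrix.mul_assoc, hU, Matrix.one_mul]
  rw [Matrix.transpose_transpose, h, Matrix.diagonal_apply_eq]

theorem pmx_conj (p : Polynomial ℝ) {Q : Matrix (Fin N) (Fin N) ℝ} (hQ : Q * Qᵀ = 1) (hQ' : Qᵀ * Q = 1)
    (A : Matrix (Fin N) (Fin N) ℝ) : pmx p (Qᵀ * A * Q) = Qᵀ * pmx p A * Q := by
  simp only [pmx, conj_pow hQ hQ', Matrix.mul_sum, Matrix.sum_mul, Matrix.mul_smul, Matrix.smul_mul]

theorem pmx_diagonal (p : Polynomial ℝ) (x : Fin N → ℝ) :
    pmx p (diagonal x) = diagonal fun j => p.eval (x j) := by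
  ext i j
  simp only [pmx, Matrix.diagonal_pow, Matrix.sum_apply, Matrix.smul_apply, smul_eq_mul]
  rcases eq_or_ne i j with h | h
  · subst h
    simp [Polynomial.eval_eq_sum_range]
  · simp [Matrix.diagonal_apply_ne _ h]

theorem cg_rot (U : Matrix (Fin N) (Fin N) ℝ) (g : Fin (M * N) → ℝ) :
    cg (rot U g) = Uᵀ * cg g * U := by
  simp only [cg, gram, mat_rot, Matrix.transpose_mul, Matrix.mul_smul, Matrix.smul_mul, Matrix.mul_assoc]

theorem ym_rot (p : Polynomial ℝ) {U : Matrix (Fin N) (Fin N) ℝ} (hU : Uᵀ * U = 1)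
    (g : Fin (M * N) → ℝ) : ym p (rot U g) = ym p g * U := by
  have hU' : U * Uᵀ = 1 := mul_eq_one_comm.1 hU
  rw [ym, ym, cg_rot, mat_rot, pmx_conj p hU' hU, Matrix.smul_mul]
  congr 1
  simp only [Matrix.mul_assoc]
  rw [← Matrix.mul_assoc U Uᵀ, hU', Matrix.one_mul]

/-- The frame pressure in terms of the spectrum of the coupling. -/
theorem ypr_eq_pr {β : ℝ} {a : Fin M → ℝ} {Y : Matrix (Fin M) (Fin N) ℝ} {P : Matrix (Fin N) (Fin N) ℝ}
    {l : Fin N → ℝ} (h : Yᵀ * diagonal a * Y = Pᵀ * diagonal l * P) (U : Matrix (Fin N) (Fin N) ℝ) :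
    ypr β a (Y * U) = pr β l (P * U : Matrix (Fin N) (Fin N) ℝ) := by
  have key : ∀ {K : ℕ} (Z : Matrix (Fin K) (Fin N) ℝ) (c : Fin K → ℝ) (s : Fin N → ℝ),
      s ⬝ᵥ (Zᵀ * diagonal c * Z) *ᵥ s = ∑ i, c i * (Z *ᵥ s) i ^ 2 := fun Z c s => by
    rw [← Matrix.mulVec_mulVec, ← Matrix.mulVec_mulVec, Matrix.dotProduct_mulVec, Matrix.vecMul_transpose]
    simp only [dotProduct, Matrix.mulVec_diagonal]
    exact Finset.sum_congr rfl fun i _ => by ring
  simp only [ypr, pr, yen, wgt]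
  congr 3
  refine Finset.sum_congr rfl fun σ _ => ?_
  congr 2
  have e2 : ∀ i, comp2 (P * U : Matrix (Fin N) (Fin N) ℝ) σ i = ((P * U) *ᵥ sv σ) i ^ 2 := fun i => rfl
  simp only [e2]
  rw [← key, ← key]
  congr 2
  rw [Matrix.transpose_mul, Matrix.transpose_mul]
  calc Uᵀ * Yᵀ * diagonal a * (Y * U) = Uᵀ * (Yᵀ * diagonal a * Y) * U := by simp only [Matrix.mul_assoc]
    _ = Uᵀ * (Pᵀ * diagonal l * P) * U := by rw [h]
    _ = Uᵀ * Pᵀ * diagonal l * (P * U) := by simp only [Matrix.mul_assoc]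

theorem trace_pow_swap (P : Matrix (Fin N) (Fin M) ℝ) (Q : Matrix (Fin M) (Fin N) ℝ) (k : ℕ) :
    ((P * Q) ^ (k + 1)).trace = ((Q * P) ^ (k + 1)).trace := by
  have h : ∀ k : ℕ, (P * Q) ^ (k + 1) = P * (Q * P) ^ k * Q := by
    intro k
    induction k with
    | zero => simp
    | succ k ih =>
      rw [pow_succ, ih, pow_succ (Q * P) k]
      simp only [Matrix.mul_assoc]
  rw [h, Matrix.trace_mul_cycle, ← pow_succ']

theorem abs_trace_mul_defect_le {Y : Matrix (Fin M) (Fin N) ℝ} (hY : ‖Y‖ ≤ 1)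
    (Z : Matrix (Fin M) (Fin M) ℝ) :
    |(Z * (1 - Y * Yᵀ)).trace| ≤ ‖Z‖ * (1 - Y * Yᵀ).trace := by
  obtain ⟨W, d, hW, hW', hD, hd⟩ := sym_spectral (1 - Y * Yᵀ)
    (by rw [Matrix.transpose_sub, Matrix.transpose_one, Matrix.transpose_mul, Matrix.transpose_transpose])
  have hWn := norm_le_one_of_orth hW
  have hd0 : ∀ j, 0 ≤ d j := fun j => by
    have e : W * (1 - Y * Yᵀ) * Wᵀ = 1 - (W * Y) * (W * Y)ᵀ := by
      rw [Matrix.mul_sub, Matrix.sub_mul, Matrix.mul_one, hW', Matrix.transpose_mul]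
      simp only [Matrix.mul_assoc]
    rw [hd, e, Matrix.sub_apply, Matrix.one_apply_eq]
    have h1 := abs_entry_le (W * Y * (W * Y)ᵀ) j j
    have h2 : ‖W * Y * (W * Y)ᵀ‖ ≤ 1 := by
      refine (Matrix.l2_opNorm_mul _ _).trans ?_
      rw [norm_transpose_eq]
      have h3 : ‖W * Y‖ ≤ 1 :=
        (Matrix.l2_opNorm_mul _ _).trans (mul_le_one₀ hWn (norm_nonneg _) hY)
      exact mul_le_one₀ h3 (norm_nonneg _) h3
    linarith [le_abs_self ((W * Y * (W * Y)ᵀ) j j)]
  rw [hD]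
  have e1 : (Z * (Wᵀ * diagonal d * W)).trace = ∑ j, (W * Z * Wᵀ) j j * d j := by
    rw [← Matrix.mul_assoc, Matrix.trace_mul_comm, ← Matrix.mul_assoc, ← Matrix.mul_assoc]
    simp [Matrix.trace, Matrix.mul_diagonal]
  have e2 : (Wᵀ * diagonal d * W).trace = ∑ j, d j := by
    rw [Matrix.trace_mul_cycle, hW', Matrix.one_mul, Matrix.trace_diagonal]
  rw [e1, e2, Finset.mul_sum]
  refine (abs_sum_le_sum_abs _ _).trans (Finset.sum_le_sum fun j _ => ?_)
  rw [abs_mul, abs_of_nonneg (hd0 j)]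
  refine mul_le_mul_of_nonneg_right ((abs_entry_le _ j j).trans ?_) (hd0 j)
  refine (Matrix.l2_opNorm_mul _ _).trans ?_
  rw [norm_transpose_eq]
  refine (mul_le_mul ((Matrix.l2_opNorm_mul _ _).trans (mul_le_of_le_one_left (norm_nonneg _) hWn)) hWn
    (norm_nonneg _) (norm_nonneg _)).trans_eq (mul_one _)

/-- Traces of powers of `diag(a) Y Yᵀ` are close to those of `diag(a)`. -/
theorem abs_trace_pow_sub_le {Y : Matrix (Fin M) (Fin N) ℝ} (hY : ‖Y‖ ≤ 1) {α : ℝ} {a : Fin M → ℝ}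
    (hα : ∀ i, |a i| ≤ α) (hα0 : 0 ≤ α) :
    ∀ (k : ℕ) (Z : Matrix (Fin M) (Fin M) ℝ),
      |(Z * ((diagonal a * (Y * Yᵀ)) ^ k - diagonal a ^ k)).trace|
        ≤ k * α ^ k * ‖Z‖ * (1 - Y * Yᵀ).trace
  | 0, Z => by simp
  | k + 1, Z => by
    set A : Matrix (Fin M) (Fin M) ℝ := diagonal a
    set K := Y * Yᵀ
    have hA : ‖A‖ ≤ α := by
      rw [Matrix.l2_opNorm_diagonal]
      exact (pi_norm_le_iff_of_nonneg hα0).2 fun i => by rw [Real.norm_eq_abs]; exact hα i
    have hK : ‖K‖ ≤ 1 := by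
      refine (Matrix.l2_opNorm_mul _ _).trans ?_
      rw [norm_transpose_eq]
      exact mul_le_one₀ hY (norm_nonneg _) hY
    have hT : 0 ≤ (1 - K).trace := by
      have h := abs_trace_mul_defect_le hY (1 : Matrix (Fin M) (Fin M) ℝ)
      rw [Matrix.one_mul] at h
      nlinarith [abs_nonneg (1 - K).trace, le_abs_self (1 - K).trace, neg_abs_le (1 - K).trace,
        norm_nonneg (1 : Matrix (Fin M) (Fin M) ℝ)]
    have e : Z * ((A * K) ^ (k + 1) - A ^ (k + 1))
        = Z * (A * K) * ((A * K) ^ k - A ^ k) - Z * A * (1 - K) * A ^ k := by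
      rw [pow_succ', pow_succ']
      simp only [Matrix.mul_sub, Matrix.sub_mul, Matrix.mul_one, ← Matrix.mul_assoc]
      abel
    rw [e, Matrix.trace_sub, Matrix.trace_mul_comm (Z * A * (1 - K)) (A ^ k)]
    rw [← Matrix.mul_assoc (A ^ k)]
    refine (abs_sub _ _).trans ?_
    have hZ := norm_nonneg Z
    have h1 := abs_trace_pow_sub_le hY hα hα0 k (Z * (A * K))
    have h2 := abs_trace_mul_defect_le hY (A ^ k * (Z * A))
    have hn1 : ‖Z * (A * K)‖ ≤ ‖Z‖ * α := by
      refine (norm_mul_le _ _).trans (mul_le_mul_of_nonneg_left ?_ hZ)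
      exact (norm_mul_le _ _).trans ((mul_le_mul hA hK (norm_nonneg _) hα0).trans_eq (mul_one α))
    have hn2 : ‖A ^ k * (Z * A)‖ ≤ ‖Z‖ * α ^ (k + 1) := by
      have hp : ∀ j : ℕ, ∀ X : Matrix (Fin M) (Fin M) ℝ, ‖A ^ j * X‖ ≤ α ^ j * ‖X‖ := by
        intro j
        induction j with
        | zero => intro X; simp
        | succ j ih =>
          intro X
          rw [pow_succ, Matrix.mul_assoc]
          refine (ih _).trans ?_
          rw [pow_succ, mul_assoc]
          exact mul_le_mul_of_nonneg_left ((norm_mul_le _ _).trans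
            (mul_le_mul_of_nonneg_right hA (norm_nonneg _))) (pow_nonneg hα0 j)
      refine (hp k _).trans ?_
      rw [pow_succ]
      have := (norm_mul_le Z A).trans (mul_le_mul_of_nonneg_left hA hZ)
      nlinarith [pow_nonneg hα0 k]
    have h1' := h1.trans (mul_le_mul_of_nonneg_right
      (mul_le_mul_of_nonneg_left hn1 (by positivity)) hT)
    have h2' := h2.trans (mul_le_mul_of_nonneg_right hn2 hT)
    refine (add_le_add h1' h2').trans_eq ?_
    push_cast
    ring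

/-- The spectrum of the coupling built on a good Gaussian matrix. -/
theorem frame_spectrum (hMN : M = N) (hN : 0 < N) (p : Polynomial ℝ) {g : Fin (M * N) → ℝ}
    {Q : Matrix (Fin N) (Fin N) ℝ} {x : Fin N → ℝ} (hQ : Qᵀ * Q = 1)
    (hg : gram g = (N : ℝ) • (Qᵀ * diagonal x * Q)) (hq : ∀ j, 0 ≤ x j ∧ x j * p.eval (x j) ^ 2 ≤ 1)
    {α : ℝ} {a : Fin M → ℝ} (ha : ∀ i, 0 ≤ a i ∧ a i ≤ α) (hα0 : 0 ≤ α) :
    ∃ (P : Matrix (Fin N) (Fin N) ℝ) (l : Fin N → ℝ), Pᵀ * P = 1 ∧
      (ym p g)ᵀ * diagonal a * ym p g = Pᵀ * diagonal l * P ∧ (∀ j, 0 ≤ l j ∧ l j ≤ α) ∧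
      ∀ k : ℕ, |∑ j, l j ^ k - ∑ i, a i ^ k| ≤ k * α ^ k * ∑ j, (1 - x j * p.eval (x j) ^ 2) := by
  have hN' : (0 : ℝ) < N := by exact_mod_cast hN
  have hQ' : Q * Qᵀ = 1 := mul_eq_one_comm.1 hQ
  set Y := ym p g
  have hcg : cg g = Qᵀ * diagonal x * Q := by
    rw [cg, hg, smul_smul, inv_mul_cancel₀ hN'.ne', one_smul]
  have hYY : Yᵀ * Y = Qᵀ * diagonal (fun j => x j * p.eval (x j) ^ 2) * Q := by
    have e : Yᵀ * Y = (pmx p (cg g))ᵀ * cg g * pmx p (cg g) := by
      simp only [Y, ym, Matrix.transpose_smul, Matrix.smul_mul, Matrix.mul_smul, smul_smul]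
      rw [← mul_inv, Real.mul_self_sqrt hN'.le]
      simp only [cg, gram, Matrix.mul_smul, Matrix.smul_mul, Matrix.transpose_mul, Matrix.mul_assoc]
    rw [e, hcg, pmx_conj p hQ' hQ, pmx_diagonal, Matrix.transpose_mul, Matrix.transpose_mul,
      Matrix.diagonal_transpose, Matrix.transpose_transpose]
    simp only [Matrix.mul_assoc]
    rw [← Matrix.mul_assoc Q Qᵀ, hQ', Matrix.one_mul, ← Matrix.mul_assoc Q Qᵀ, hQ', Matrix.one_mul,
      ← Matrix.mul_assoc (diagonal x) (diagonal _), Matrix.diagonal_mul_diagonal,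
      ← Matrix.mul_assoc (diagonal _) (diagonal _), Matrix.diagonal_mul_diagonal]
    congr 2
    ext j
    simp only [Matrix.diagonal_apply]
    split_ifs <;> ring
  have hY : ‖Y‖ ≤ 1 := by
    have h := Matrix.l2_opNorm_conjTranspose_mul_self Y
    rw [Matrix.conjTranspose_eq_transpose_of_trivial, hYY] at h
    have hd : ‖(diagonal fun j => x j * p.eval (x j) ^ 2 : Matrix (Fin N) (Fin N) ℝ)‖ ≤ 1 := by
      rw [Matrix.l2_opNorm_diagonal]
      refine (pi_norm_le_iff_of_nonneg zero_le_one).2 fun j => ?_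
      rw [Real.norm_eq_abs, abs_of_nonneg (mul_nonneg (hq j).1 (sq_nonneg _))]
      exact (hq j).2
    have : ‖Y‖ * ‖Y‖ ≤ 1 := by
      rw [← h]
      refine (norm_mul_le _ _).trans (mul_le_one₀ ((norm_mul_le _ _).trans ?_) (norm_nonneg _)
        (norm_le_one_of_orth hQ))
      rw [norm_transpose_eq]
      exact mul_le_one₀ (norm_le_one_of_orth hQ) (norm_nonneg _) hd
    nlinarith [norm_nonneg Y]
  have hJsym : (Yᵀ * diagonal a * Y)ᵀ = Yᵀ * diagonal a * Y := by
    rw [Matrix.transpose_mul, Matrix.transpose_mul, Matrix.diagonal_transpose, Matrix.transpose_transpose]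
    simp only [Matrix.mul_assoc]
  obtain ⟨P, l, hP, hP', hJ, hl⟩ := sym_spectral _ hJsym
  refine ⟨P, l, hP, hJ, fun j => ?_, fun k => ?_⟩
  · have e : P * (Yᵀ * diagonal a * Y) * Pᵀ = (Y * Pᵀ)ᵀ * diagonal a * (Y * Pᵀ) := by
      rw [Matrix.transpose_mul, Matrix.transpose_transpose]; simp only [Matrix.mul_assoc]
    rw [hl, e]
    refine ⟨?_, ?_⟩
    · rw [Matrix.mul_apply]
      simp only [Matrix.mul_diagonal, Matrix.transpose_apply]
      refine Finset.sum_nonneg fun i _ => ?_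
      rw [mul_right_comm]
      exact mul_nonneg (mul_self_nonneg _) (ha i).1
    · have hZ : ‖Y * Pᵀ‖ ≤ 1 := by
        refine (Matrix.l2_opNorm_mul _ _).trans ?_
        rw [norm_transpose_eq]
        exact mul_le_one₀ hY (norm_nonneg _) (norm_le_one_of_orth hP)
      have hA : ‖(diagonal a : Matrix (Fin M) (Fin M) ℝ)‖ ≤ α := by
        rw [Matrix.l2_opNorm_diagonal]
        exact (pi_norm_le_iff_of_nonneg hα0).2 fun i => by
          rw [Real.norm_eq_abs, abs_of_nonneg (ha i).1]; exact (ha i).2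
      refine (le_abs_self _).trans ((abs_entry_le _ j j).trans ((Matrix.l2_opNorm_mul _ _).trans ?_))
      refine (mul_le_mul ((Matrix.l2_opNorm_mul _ _).trans (mul_le_mul_of_nonneg_right
        ((norm_transpose_eq (Y * Pᵀ)).le.trans hZ) (norm_nonneg _))) hZ (norm_nonneg _) (by positivity)).trans ?_
      simpa using hA
  · have hsum : ∑ j, l j ^ k = ((Yᵀ * diagonal a * Y) ^ k).trace := by
      rw [hJ, conj_pow hP' hP, Matrix.trace_mul_cycle, hP', Matrix.one_mul, Matrix.diagonal_pow,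
        Matrix.trace_diagonal]
      simp
    have hsum' : ∑ i, a i ^ k = ((diagonal a : Matrix (Fin M) (Fin M) ℝ) ^ k).trace := by
      rw [Matrix.diagonal_pow, Matrix.trace_diagonal]; simp
    have htr : (1 - Y * Yᵀ).trace = ∑ j, (1 - x j * p.eval (x j) ^ 2) := by
      rw [Matrix.trace_sub, Matrix.trace_one, Matrix.trace_mul_comm, hYY, Matrix.trace_mul_cycle, hQ',
        Matrix.one_mul, Matrix.trace_diagonal, Finset.sum_sub_distrib]
      simp [hMN]
    rw [hsum, hsum', ← htr]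
    rcases k with _ | k
    · simp [hMN]
    rw [Matrix.mul_assoc Yᵀ, trace_pow_swap, Matrix.mul_assoc (diagonal a), ← Matrix.trace_sub]
    have h := abs_trace_pow_sub_le hY (α := α) (a := a) (fun i => by
      rw [abs_of_nonneg (ha i).1]; exact (ha i).2) hα0 (k + 1) 1
    rw [Matrix.one_mul] at h
    refine h.trans ?_
    have h1 : ‖(1 : Matrix (Fin M) (Fin M) ℝ)‖ ≤ 1 := norm_le_one_of_orth (by simp)
    have hT : 0 ≤ (1 - Y * Yᵀ).trace := by
      rw [htr]; exact Finset.sum_nonneg fun j _ => sub_nonneg.2 (hq j).2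
    exact mul_le_mul_of_nonneg_right (mul_le_of_le_one_right (by positivity) h1) hT

/-- Expected deviation of the frame pressure under a random rotation. -/
noncomputable def fdev (π : Measure (Fin N → Fin N → ℝ)) (β c : ℝ) (a : Fin M → ℝ) (p : Polynomial ℝ)
    (g : Fin (M * N) → ℝ) : ℝ :=
  ∫ U, |ypr β a (ym p (rot (Matrix.of U) g)) - c| ∂π

theorem fdev_facts (hN : 0 < N) {β α : ℝ} (c : ℝ) {a : Fin M → ℝ} (ha : ∀ i, |a i| ≤ α) (hα0 : 0 ≤ α)
    (p : Polynomial ℝ) {π : Measure (Fin N → Fin N → ℝ)} [IsProbabilityMeasure π] (hπ : LeftInv π) :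
    Integrable (fdev π β c a p) (gs (M * N)) ∧
      ∫ g, fdev π β c a p g ∂gs (M * N) = ∫ g, |ypr β a (ym p g) - c| ∂gs (M * N) ∧
      ∀ (g : Fin (M * N) → ℝ) (P : Matrix (Fin N) (Fin N) ℝ) (l : Fin N → ℝ), Pᵀ * P = 1 →
        (ym p g)ᵀ * diagonal a * ym p g = Pᵀ * diagonal l * P →
        fdev π β c a p g = ∫ U, |pr β l U - c| ∂π := by
  set F : (Fin (M * N) → ℝ) × (Fin N → Fin N → ℝ) → ℝ := fun q =>
    |ypr β a (ym p (rot (Matrix.of q.2) q.1)) - c| with hFdef
  have hFc : Continuous fun g : Fin (M * N) → ℝ => ypr β a (ym p g) := (continuous_frame β a p).1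
  have hrot : Continuous fun q : (Fin (M * N) → ℝ) × (Fin N → Fin N → ℝ) => rot (Matrix.of q.2) q.1 := by
    refine continuous_pi fun j => ?_
    simp only [rot, Matrix.mul_apply, mat, Matrix.of_apply]
    fun_prop
  have hFm : Continuous F := by
    have h := hFc.comp hrot
    simp only [Function.comp_def] at h
    exact (h.sub continuous_const).abs
  set K := |β| / 2 * α * csum p ^ 2
  have hb : ∀ᵐ q ∂(gs (M * N)).prod π,
      ‖F q‖ ≤ K * env q.1 ^ (2 * (p.natDegree + 1)) + |c| := by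
    have h := (Measure.quasiMeasurePreserving_snd (μ := gs (M * N)) (ν := π)).ae hπ.1
    filter_upwards [h] with q hq
    simp only [F, Real.norm_eq_abs, abs_abs]
    refine (abs_sub _ _).trans (add_le_add ?_ le_rfl)
    rw [ym_rot p hq]
    refine (abs_ypr_le ha hα0 hN _).trans ?_
    simp only [K]
    rw [mul_assoc _ (csum p ^ 2)]
    refine mul_le_mul_of_nonneg_left ?_ (by positivity)
    rw [mul_comm 2 (p.natDegree + 1), pow_mul, ← mul_pow]
    refine pow_le_pow_left₀ (norm_nonneg _) ((Matrix.l2_opNorm_mul _ _).trans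
      ((mul_le_of_le_one_right (norm_nonneg _) (norm_le_one_of_orth hq)).trans
      ((norm_ym_le p q.1).trans ?_))) 2
    exact mul_le_mul_of_nonneg_left (pow_le_pow_left₀ (by positivity) (norm_cg_le_env q.1 hN) _)
      (csum_nonneg p)
  have hF : Integrable F ((gs (M * N)).prod π) :=
    ((((integrable_env_pow _).const_mul K).fun_add (integrable_const |c|)).comp_fst π).mono'
      hFm.aestronglyMeasurable hb
  refine ⟨hF.integral_prod_left, ?_, fun g P l hP hrep => ?_⟩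
  · have e1 : ∫ g, fdev π β c a p g ∂gs (M * N) = ∫ U, ∫ g, F (g, U) ∂gs (M * N) ∂π := by
      rw [← integral_prod_symm _ hF, integral_prod _ hF]; rfl
    rw [e1, integral_congr_ae (g := fun _ => ∫ g, |ypr β a (ym p g) - c| ∂gs (M * N)) ?_]
    · simp
    · filter_upwards [hπ.1] with U hU
      have hmp := measurePreserving_rot (M := M) (Matrix.of U) hU
      conv_rhs => rw [← hmp.map_eq]
      rw [integral_map (f := fun g => |ypr β a (ym p g) - c|) hmp.measurable.aemeasurable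
        (hFc.sub continuous_const).abs.aestronglyMeasurable]
  · conv_rhs => rw [← hπ.2 P hP]
    rw [integral_map]
    · refine integral_congr_ae (hπ.1.mono fun U hU => ?_)
      simp only [ym_rot p hU, ypr_eq_pr hrep]
    · refine (measurable_pi_lambda _ fun i => measurable_pi_lambda _ fun k => ?_).aemeasurable
      simp only [Matrix.mul_apply, Matrix.of_apply]; fun_prop
    · exact (((measurable_pr l).sub_const c).abs).aestronglyMeasurable

end Vale.Agent.P166
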