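import Vale.Agent.P166.Conc.Pair
import Vale.Agent.P166.MP

/-!
The pressure of the coupling `Yᵀ diag(a) Y` with `Y = G p(GᵀG/N) / √N` for a polynomial `p`:
derivative, bounds and variance.
-/

open MeasureTheory ProbabilityTheory Filter Topology Matrix Finset
open scoped Matrix.Norms.L2Operator

namespace Vale.Agent.P166

variable {M N : ℕ}

/-! ### Operator norms -/

theorem sum_sq_mulVec_le {m n : Type*} [Fintype m] [Fintype n] [DecidableEq n] (A : Matrix m n ℝ)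
    (v : n → ℝ) : √(∑ i, (A *ᵥ v) i ^ 2) ≤ ‖A‖ * √(∑ j, v j ^ 2) := by
  have h := Matrix.l2_opNorm_mulVec A (WithLp.toLp 2 v)
  rw [EuclideanSpace.norm_eq, EuclideanSpace.norm_eq] at h
  simpa using h

theorem norm_le_of_mulVec {m n : Type*} [Fintype m] [Fintype n] [DecidableEq n] {A : Matrix m n ℝ}
    {c : ℝ} (hc : 0 ≤ c) (h : ∀ v : n → ℝ, √(∑ i, (A *ᵥ v) i ^ 2) ≤ c * √(∑ j, v j ^ 2)) : ‖A‖ ≤ c := by
  rw [Matrix.l2_opNorm_def]
  refine ContinuousLinearMap.opNorm_le_bound _ hc fun x => ?_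
  rw [EuclideanSpace.norm_eq, EuclideanSpace.norm_eq]
  simp only [Real.norm_eq_abs, sq_abs]
  exact h x.ofLp

theorem abs_entry_le {m n : Type*} [Fintype m] [Fintype n] [DecidableEq n] (A : Matrix m n ℝ)
    (i : m) (j : n) : |A i j| ≤ ‖A‖ := by
  have h := sum_sq_mulVec_le A (Pi.single j 1)
  have h1 : ∑ l, (Pi.single j (1 : ℝ) : n → ℝ) l ^ 2 = 1 := by simp [Pi.single_apply]
  rw [h1, Real.sqrt_one, mul_one] at h
  refine le_trans ?_ h
  rw [← Real.sqrt_sq_eq_abs]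
  refine Real.sqrt_le_sqrt ?_
  refine le_trans (le_of_eq ?_) (single_le_sum (fun l _ => sq_nonneg _) (mem_univ i))
  simp [Matrix.mulVec_single]

theorem norm_transpose_eq {m n : Type*} [Fintype m] [Fintype n] [DecidableEq m] [DecidableEq n]
    (A : Matrix m n ℝ) : ‖Aᵀ‖ = ‖A‖ := by
  rw [← Matrix.conjTranspose_eq_transpose_of_trivial, Matrix.l2_opNorm_conjTranspose]

theorem norm_le_one_of_orth {n : Type*} [Fintype n] [DecidableEq n] {U : Matrix n n ℝ}
    (hU : Uᵀ * U = 1) : ‖U‖ ≤ 1 := by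
  refine norm_le_of_mulVec zero_le_one fun v => ?_
  rw [one_mul]
  refine le_of_eq (congrArg _ ?_)
  have h : (U *ᵥ v) ⬝ᵥ (U *ᵥ v) = v ⬝ᵥ v := by
    rw [Matrix.dotProduct_mulVec, ← Matrix.mulVec_transpose, Matrix.mulVec_mulVec, hU,
      Matrix.one_mulVec]
  simpa [dotProduct, pow_two] using h

theorem norm_pow_le_add {n : Type*} [Fintype n] [DecidableEq n] (A : Matrix n n ℝ) :
    ∀ l : ℕ, ‖A ^ l‖ ≤ (1 + ‖A‖) ^ l
  | 0 => by simpa using norm_le_one_of_orth (U := (1 : Matrix n n ℝ)) (by simp)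
  | l + 1 => by
    rw [pow_succ, pow_succ]
    exact (norm_mul_le _ _).trans (mul_le_mul (norm_pow_le_add A l) (by linarith) (norm_nonneg _)
      (by positivity))

theorem norm_mat_le (h : Fin (M * N) → ℝ) : ‖mat h‖ ≤ √(∑ j, h j ^ 2) := by
  refine norm_le_of_mulVec (Real.sqrt_nonneg _) fun v => ?_
  rw [← Real.sqrt_mul (Finset.sum_nonneg fun j _ => sq_nonneg _)]
  refine Real.sqrt_le_sqrt ?_
  rw [← finProdFinEquiv.sum_comp fun j => h j ^ 2, Fintype.sum_prod_type, Finset.sum_mul]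
  refine Finset.sum_le_sum fun a _ => ?_
  simp only [Matrix.mulVec, dotProduct]
  exact Finset.sum_mul_sq_le_sq_mul_sq univ (fun i => mat h a i) v

theorem sumsq_le_env {n : ℕ} (g : Fin n → ℝ) : 1 + ∑ i, g i ^ 2 ≤ env g := by
  unfold env
  induction (univ : Finset (Fin n)) using Finset.induction_on with
  | empty => simp
  | @insert i s hi ih =>
    rw [sum_insert hi, prod_insert hi]
    have h0 : 0 ≤ ∑ j ∈ s, g j ^ 2 := Finset.sum_nonneg fun j _ => sq_nonneg _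
    nlinarith [mul_nonneg (sq_nonneg (g i)) h0,
      mul_le_mul_of_nonneg_left ih (show (0 : ℝ) ≤ 1 + g i ^ 2 by positivity)]

/-! ### The frame -/

/-- The normalised Gram matrix. -/
noncomputable def cg (g : Fin (M * N) → ℝ) : Matrix (Fin N) (Fin N) ℝ := (N : ℝ)⁻¹ • gram g

/-- A polynomial of a matrix. -/
noncomputable def pmx (p : Polynomial ℝ) (A : Matrix (Fin N) (Fin N) ℝ) : Matrix (Fin N) (Fin N) ℝ :=
  ∑ l ∈ range (p.natDegree + 1), p.coeff l • A ^ l

/-- The frame `G p(GᵀG/N) / √N`. -/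
noncomputable def ym (p : Polynomial ℝ) (g : Fin (M * N) → ℝ) : Matrix (Fin M) (Fin N) ℝ :=
  (√(N : ℝ))⁻¹ • (mat g * pmx p (cg g))

/-- Derivative of the normalised Gram matrix. -/
noncomputable def dcg (g h : Fin (M * N) → ℝ) : Matrix (Fin N) (Fin N) ℝ :=
  (N : ℝ)⁻¹ • ((mat h)ᵀ * mat g + (mat g)ᵀ * mat h)

/-- Derivative of its powers. -/
noncomputable def dpw (g h : Fin (M * N) → ℝ) : ℕ → Matrix (Fin N) (Fin N) ℝ
  | 0 => 0
  | l + 1 => dpw g h l * cg g + cg g ^ l * dcg g h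

/-- Derivative of the frame. -/
noncomputable def dym (p : Polynomial ℝ) (g h : Fin (M * N) → ℝ) : Matrix (Fin M) (Fin N) ℝ :=
  (√(N : ℝ))⁻¹ • (mat h * pmx p (cg g) + mat g * ∑ l ∈ range (p.natDegree + 1), p.coeff l • dpw g h l)

/-- Configuration vector. -/
def sv (σ : Fin N → Bool) : Fin N → ℝ := fun k => spin (σ k)

/-- Energy of a configuration for the frame. -/
noncomputable def yen (β : ℝ) (a : Fin M → ℝ) (Y : Matrix (Fin M) (Fin N) ℝ) (σ : Fin N → Bool) : ℝ :=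
  β / 2 * ∑ i, a i * (Y *ᵥ sv σ) i ^ 2

/-- Pressure for the frame. -/
noncomputable def ypr (β : ℝ) (a : Fin M → ℝ) (Y : Matrix (Fin M) (Fin N) ℝ) : ℝ :=
  1 / (N : ℝ) * Real.log (((2 : ℝ) ^ N)⁻¹ * ∑ σ, Real.exp (yen β a Y σ))

/-- Derivative of the pressure in the direction `Z`. -/
noncomputable def ydv (β : ℝ) (a : Fin M → ℝ) (Y Z : Matrix (Fin M) (Fin N) ℝ) : ℝ :=
  β / (N : ℝ) * ((∑ σ, Real.exp (yen β a Y σ) * ∑ i, a i * (Y *ᵥ sv σ) i * (Z *ᵥ sv σ) i)
    / ∑ σ, Real.exp (yen β a Y σ))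

theorem sum_sv_sq (σ : Fin N → Bool) : ∑ k, sv σ k ^ 2 = N := by
  have e : ∀ k, sv σ k ^ 2 = 1 := fun k => by rcases h : σ k <;> simp [sv, spin, h]
  simp [e]

theorem ysum_pos (β : ℝ) (a : Fin M → ℝ) (Y : Matrix (Fin M) (Fin N) ℝ) :
    0 < ∑ σ, Real.exp (yen β a Y σ) :=
  Finset.sum_pos (fun σ _ => Real.exp_pos _) univ_nonempty

theorem abs_bilin_le {α : ℝ} {a : Fin M → ℝ} (hα : ∀ i, |a i| ≤ α) (hα0 : 0 ≤ α)
    (Y Z : Matrix (Fin M) (Fin N) ℝ) (σ : Fin N → Bool) :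
    |∑ i, a i * (Y *ᵥ sv σ) i * (Z *ᵥ sv σ) i| ≤ α * ‖Y‖ * ‖Z‖ * N := by
  refine (abs_sum_le_sum_abs _ _).trans ?_
  calc ∑ i, |a i * (Y *ᵥ sv σ) i * (Z *ᵥ sv σ) i|
      ≤ α * ∑ i, |(Y *ᵥ sv σ) i| * |(Z *ᵥ sv σ) i| := by
        rw [Finset.mul_sum]
        refine Finset.sum_le_sum fun i _ => ?_
        rw [abs_mul, abs_mul, mul_assoc]
        exact mul_le_mul_of_nonneg_right (hα i) (by positivity)
    _ ≤ α * ((‖Y‖ * √(N : ℝ)) * (‖Z‖ * √(N : ℝ))) := by
        refine mul_le_mul_of_nonneg_left ?_ hα0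
        refine (Real.sum_mul_le_sqrt_mul_sqrt _ _ _).trans ?_
        simp only [sq_abs]
        have h1 := sum_sq_mulVec_le Y (sv σ)
        have h2 := sum_sq_mulVec_le Z (sv σ)
        rw [sum_sv_sq] at h1 h2
        exact mul_le_mul h1 h2 (Real.sqrt_nonneg _) (by positivity)
    _ = α * ‖Y‖ * ‖Z‖ * N := by
        rw [mul_mul_mul_comm, Real.mul_self_sqrt (Nat.cast_nonneg N)]; ring

theorem abs_ydv_le {β α : ℝ} {a : Fin M → ℝ} (hα : ∀ i, |a i| ≤ α) (hα0 : 0 ≤ α) (hN : 0 < N)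
    (Y Z : Matrix (Fin M) (Fin N) ℝ) : |ydv β a Y Z| ≤ |β| * α * ‖Y‖ * ‖Z‖ := by
  have hN' : (0 : ℝ) < N := by exact_mod_cast hN
  have hS := ysum_pos β a Y
  rw [ydv, abs_mul, abs_div, abs_div, abs_of_pos hN', abs_of_pos hS]
  have h : |∑ σ, Real.exp (yen β a Y σ) * ∑ i, a i * (Y *ᵥ sv σ) i * (Z *ᵥ sv σ) i|
      ≤ (∑ σ, Real.exp (yen β a Y σ)) * (α * ‖Y‖ * ‖Z‖ * N) := by
    refine (abs_sum_le_sum_abs _ _).trans ?_
    rw [Finset.sum_mul]
    refine Finset.sum_le_sum fun σ _ => ?_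
    rw [abs_mul, abs_of_pos (Real.exp_pos _)]
    exact mul_le_mul_of_nonneg_left (abs_bilin_le hα hα0 Y Z σ) (Real.exp_pos _).le
  calc |β| / N * (|∑ σ, Real.exp (yen β a Y σ) * ∑ i, a i * (Y *ᵥ sv σ) i * (Z *ᵥ sv σ) i|
        / ∑ σ, Real.exp (yen β a Y σ))
      ≤ |β| / N * (α * ‖Y‖ * ‖Z‖ * N) := by
        refine mul_le_mul_of_nonneg_left ?_ (by positivity)
        rw [div_le_iff₀ hS]; linarith
    _ = _ := by field_simp

theorem abs_ypr_le {β α : ℝ} {a : Fin M → ℝ} (hα : ∀ i, |a i| ≤ α) (hα0 : 0 ≤ α) (hN : 0 < N)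
    (Y : Matrix (Fin M) (Fin N) ℝ) : |ypr β a Y| ≤ |β| / 2 * α * ‖Y‖ ^ 2 := by
  have hN' : (0 : ℝ) < N := by exact_mod_cast hN
  have h2 : (0 : ℝ) < (2 : ℝ) ^ N := by positivity
  set X := |β| / 2 * α * ‖Y‖ ^ 2 * N
  have hen : ∀ σ, |yen β a Y σ| ≤ X := fun σ => by
    rw [yen, abs_mul, abs_div, abs_two]
    refine (mul_le_mul_of_nonneg_left ?_ (by positivity)).trans_eq
      (by simp only [X]; ring : |β| / 2 * (α * ‖Y‖ * ‖Y‖ * N) = X)
    refine le_trans (le_of_eq (congrArg _ ?_)) (abs_bilin_le hα hα0 Y Y σ)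
    exact Finset.sum_congr rfl fun i _ => by ring
  have hlo : (2 : ℝ) ^ N * Real.exp (-X) ≤ ∑ σ, Real.exp (yen β a Y σ) := by
    refine le_trans (le_of_eq ?_) (Finset.sum_le_sum fun σ _ => Real.exp_le_exp.2 (neg_le_of_abs_le (hen σ)))
    simp
  have hhi : ∑ σ, Real.exp (yen β a Y σ) ≤ (2 : ℝ) ^ N * Real.exp X := by
    refine (Finset.sum_le_sum fun σ _ => Real.exp_le_exp.2 (le_of_abs_le (hen σ))).trans (le_of_eq ?_)
    simp
  have hS := ysum_pos β a Y
  have l1 : -X ≤ Real.log (((2 : ℝ) ^ N)⁻¹ * ∑ σ, Real.exp (yen β a Y σ)) := by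
    rw [Real.le_log_iff_exp_le (by positivity), le_inv_mul_iff₀ h2]; exact hlo
  have l2 : Real.log (((2 : ℝ) ^ N)⁻¹ * ∑ σ, Real.exp (yen β a Y σ)) ≤ X := by
    rw [Real.log_le_iff_le_exp (by positivity), inv_mul_le_iff₀ h2]; exact hhi
  rw [ypr, abs_mul, abs_of_nonneg (by positivity), one_div, inv_mul_le_iff₀ hN']
  exact (abs_le.2 ⟨l1, l2⟩).trans_eq (by simp only [X]; ring)

/-! ### Bounds in terms of the norm of the Gram matrix -/

/-- Sum of the moduli of the coefficients. -/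
noncomputable def csum (p : Polynomial ℝ) : ℝ := ∑ l ∈ range (p.natDegree + 1), |p.coeff l|

theorem csum_nonneg (p : Polynomial ℝ) : 0 ≤ csum p := Finset.sum_nonneg fun _ _ => abs_nonneg _

theorem norm_cg (g : Fin (M * N) → ℝ) : ‖cg g‖ = (‖mat g‖ / √(N : ℝ)) ^ 2 := by
  have h := Matrix.l2_opNorm_conjTranspose_mul_self (mat g)
  rw [Matrix.conjTranspose_eq_transpose_of_trivial] at h
  rw [cg, norm_smul, gram, h, div_pow, Real.sq_sqrt (Nat.cast_nonneg N), norm_inv, Real.norm_natCast]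
  ring

theorem norm_mat_scaled_le (g : Fin (M * N) → ℝ) : ‖mat g‖ / √(N : ℝ) ≤ 1 + ‖cg g‖ := by
  rw [norm_cg]
  nlinarith [sq_nonneg (‖mat g‖ / √(N : ℝ) - 1), div_nonneg (norm_nonneg (mat g)) (Real.sqrt_nonneg (N : ℝ))]

theorem norm_pmx_le (p : Polynomial ℝ) (A : Matrix (Fin N) (Fin N) ℝ) :
    ‖pmx p A‖ ≤ csum p * (1 + ‖A‖) ^ p.natDegree := by
  refine (norm_sum_le _ _).trans ?_
  rw [csum, Finset.sum_mul]
  refine Finset.sum_le_sum fun l hl => ?_
  rw [norm_smul, Real.norm_eq_abs]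
  exact mul_le_mul_of_nonneg_left ((norm_pow_le_add A l).trans (pow_le_pow_right₀
    (by linarith [norm_nonneg A]) (by simp at hl; omega))) (abs_nonneg _)

theorem norm_dpw_le (g h : Fin (M * N) → ℝ) :
    ∀ l : ℕ, ‖dpw g h l‖ ≤ l * (1 + ‖cg g‖) ^ l * ‖dcg g h‖
  | 0 => by simp [dpw]
  | l + 1 => by
    rw [dpw]
    refine (norm_add_le _ _).trans ?_
    have hx := norm_nonneg (cg g)
    have hd := norm_nonneg (dcg g h)
    have h1 := (norm_mul_le _ (cg g)).trans (mul_le_mul (norm_dpw_le g h l)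
      (by linarith : ‖cg g‖ ≤ 1 + ‖cg g‖) hx (by positivity))
    have h2 := (norm_mul_le (cg g ^ l) (dcg g h)).trans
      (mul_le_mul (norm_pow_le_add (cg g) l) le_rfl hd (by positivity))
    have h3 : (1 + ‖cg g‖) ^ l * ‖dcg g h‖ ≤ (1 + ‖cg g‖) ^ (l + 1) * ‖dcg g h‖ :=
      mul_le_mul_of_nonneg_right (pow_le_pow_right₀ (by linarith) (Nat.le_succ l)) hd
    push_cast
    rw [pow_succ] at h3 ⊢
    nlinarith [h1, h2, h3]

theorem norm_ym_le (p : Polynomial ℝ) (g : Fin (M * N) → ℝ) :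
    ‖ym p g‖ ≤ csum p * (1 + ‖cg g‖) ^ (p.natDegree + 1) := by
  rw [ym, norm_smul, norm_inv, Real.norm_eq_abs, abs_of_nonneg (Real.sqrt_nonneg _)]
  refine (mul_le_mul_of_nonneg_left (Matrix.l2_opNorm_mul _ _) (by positivity)).trans ?_
  rw [← mul_assoc, inv_mul_eq_div, pow_succ, ← mul_assoc, mul_comm (‖mat g‖ / √(N : ℝ))]
  exact mul_le_mul (norm_pmx_le p _) (norm_mat_scaled_le g) (by positivity)
    (mul_nonneg (csum_nonneg p) (by positivity))

theorem norm_dym_le (p : Polynomial ℝ) (g h : Fin (M * N) → ℝ) (hN : 0 < N) :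
    ‖dym p g h‖ ≤ csum p * (2 * p.natDegree + 1) * (1 + ‖cg g‖) ^ (p.natDegree + 1)
      * √(∑ j, h j ^ 2) / √(N : ℝ) := by
  have hN' : (0 : ℝ) < N := by exact_mod_cast hN
  have hsN : 0 < √(N : ℝ) := Real.sqrt_pos.2 hN'
  set x := ‖cg g‖
  set H := √(∑ j, h j ^ 2)
  set d := p.natDegree
  have hx : 0 ≤ x := norm_nonneg _
  have hH : 0 ≤ H := Real.sqrt_nonneg _
  have hK := csum_nonneg p
  have hdc : ‖dcg g h‖ ≤ 2 * ‖mat g‖ * H / N := by
    rw [dcg, norm_smul, norm_inv, Real.norm_natCast, inv_mul_eq_div]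
    refine div_le_div_of_nonneg_right ?_ hN'.le
    refine (norm_add_le _ _).trans ((add_le_add (Matrix.l2_opNorm_mul _ _) (Matrix.l2_opNorm_mul _ _)).trans ?_)
    rw [norm_transpose_eq, norm_transpose_eq]
    nlinarith [norm_mat_le h, norm_nonneg (mat g)]
  have h1 : ‖mat h * pmx p (cg g)‖ ≤ H * (csum p * (1 + x) ^ d) :=
    (Matrix.l2_opNorm_mul _ _).trans (mul_le_mul (norm_mat_le h) (norm_pmx_le p _) (norm_nonneg _) hH)
  have h2 : ‖∑ l ∈ range (d + 1), p.coeff l • dpw g h l‖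
      ≤ csum p * (d * (1 + x) ^ d * ‖dcg g h‖) := by
    refine (norm_sum_le _ _).trans ?_
    rw [csum, Finset.sum_mul]
    refine Finset.sum_le_sum fun l hl => ?_
    rw [norm_smul, Real.norm_eq_abs]
    refine mul_le_mul_of_nonneg_left ((norm_dpw_le g h l).trans ?_) (abs_nonneg _)
    have hld : l ≤ d := by simp at hl; omega
    exact mul_le_mul_of_nonneg_right (mul_le_mul (by exact_mod_cast hld)
      (pow_le_pow_right₀ (by linarith) hld) (by positivity) (by positivity)) (norm_nonneg _)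
  have h3 : ‖mat g * ∑ l ∈ range (d + 1), p.coeff l • dpw g h l‖
      ≤ 2 * x * (csum p * (d * (1 + x) ^ d)) * H := by
    refine (Matrix.l2_opNorm_mul _ _).trans ((mul_le_mul_of_nonneg_left (h2.trans
      (mul_le_mul_of_nonneg_left (mul_le_mul_of_nonneg_left hdc (by positivity)) hK)) (norm_nonneg _)).trans_eq ?_)
    simp only [x, norm_cg]
    rw [div_pow, Real.sq_sqrt hN'.le]
    ring
  rw [dym, norm_smul, norm_inv, Real.norm_eq_abs, abs_of_pos hsN, inv_mul_eq_div]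
  refine div_le_div_of_nonneg_right ((norm_add_le _ _).trans ((add_le_add h1 h3).trans ?_)) hsN.le
  have e : H * (csum p * (1 + x) ^ d) + 2 * x * (csum p * (d * (1 + x) ^ d)) * H
      = csum p * H * (1 + x) ^ d * (1 + 2 * x * d) := by ring
  have e' : csum p * (2 * (d : ℝ) + 1) * (1 + x) ^ (d + 1) * H
      = csum p * H * (1 + x) ^ d * ((2 * d + 1) * (1 + x)) := by ring
  rw [e, e']
  exact mul_le_mul_of_nonneg_left (by nlinarith [(Nat.cast_nonneg d : (0 : ℝ) ≤ d)]) (by positivity)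

theorem norm_cg_le_env (g : Fin (M * N) → ℝ) (hN : 0 < N) : 1 + ‖cg g‖ ≤ env g := by
  have hN' : (1 : ℝ) ≤ N := by exact_mod_cast hN
  have h := norm_mat_le g
  rw [norm_cg, div_pow, Real.sq_sqrt (by linarith)]
  have h2 : ‖mat g‖ ^ 2 ≤ ∑ j, g j ^ 2 :=
    (pow_le_pow_left₀ (norm_nonneg _) h 2).trans_eq (Real.sq_sqrt (Finset.sum_nonneg fun j _ => sq_nonneg _))
  have h3 : ‖mat g‖ ^ 2 / (N : ℝ) ≤ ‖mat g‖ ^ 2 := div_le_self (sq_nonneg _) hN'
  linarith [sumsq_le_env g]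

/-- The largest eigenvalue is controlled by traces of powers. -/
theorem norm_cg_pow_le (g : Fin (M * N) → ℝ) (hN : 0 < N) (k : ℕ) :
    ‖cg g‖ ^ k ≤ N * tm k g + 1 := by
  have hN' : (0 : ℝ) < N := by exact_mod_cast hN
  have : Nonempty (Fin N) := Fin.pos_iff_nonempty.1 hN
  obtain ⟨Q, x, hQ, hQ', hg, hx⟩ := gram_spectral hN g
  have hx0 : ∀ j, 0 ≤ x j := fun j => by
    rw [hx]; exact div_nonneg (Finset.sum_nonneg fun a _ => sq_nonneg _) hN'.le
  have hle : ‖cg g‖ ≤ ‖x‖ := by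
    rw [cg, hg, smul_smul, inv_mul_cancel₀ hN'.ne', one_smul, ← l2_opNorm_diagonal x]
    refine (norm_mul_le _ _).trans ?_
    have h1 : ‖Qᵀ * diagonal x‖ ≤ ‖(diagonal x : Matrix (Fin N) (Fin N) ℝ)‖ := by
      refine (norm_mul_le _ _).trans ?_
      rw [norm_transpose_eq]
      exact mul_le_of_le_one_left (norm_nonneg _) (norm_le_one_of_orth hQ)
    exact (mul_le_mul h1 (norm_le_one_of_orth hQ) (norm_nonneg _) (norm_nonneg _)).trans_eq (mul_one _)
  obtain ⟨j, -, hj⟩ := exists_max_image univ x univ_nonempty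
  have hxn : ‖x‖ ≤ x j := (pi_norm_le_iff_of_nonneg (hx0 j)).2 fun i => by
    rw [Real.norm_eq_abs, abs_of_nonneg (hx0 i)]; exact hj i (mem_univ i)
  refine (pow_le_pow_left₀ (norm_nonneg _) (hle.trans hxn) k).trans ?_
  rw [tm_eq hN hQ hQ' hg, mul_div_cancel₀ _ hN'.ne']
  linarith [single_le_sum (fun i _ => pow_nonneg (hx0 i) k) (mem_univ j)]

/-! ### Derivative -/

theorem hasDerivAt_ym {γ : ℝ → Fin (M * N) → ℝ} {h : Fin (M * N) → ℝ} {θ : ℝ}
    (hγ : ∀ j, HasDerivAt (fun r => γ r j) (h j) θ) (p : Polynomial ℝ) (a : Fin M) (i : Fin N) :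
    HasDerivAt (fun r => ym p (γ r) a i) (dym p (γ θ) h a i) θ := by
  have hm : ∀ b k, HasDerivAt (fun r => mat (γ r) b k) (mat h b k) θ := fun b k => hγ _
  have hC : ∀ k l, HasDerivAt (fun r => cg (γ r) k l) (dcg (γ θ) h k l) θ := fun k l => by
    simp only [cg, dcg, gram, Matrix.smul_apply, Matrix.add_apply, Matrix.mul_apply,
      Matrix.transpose_apply, smul_eq_mul, ← Finset.sum_add_distrib]
    exact (HasDerivAt.fun_sum fun b _ => (hm b k).mul (hm b l)).const_mul _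
  have hP : ∀ (n : ℕ) k l, HasDerivAt (fun r => (cg (γ r) ^ n) k l) (dpw (γ θ) h n k l) θ := by
    intro n
    induction n with
    | zero =>
      intro k l
      simp only [pow_zero, dpw, Matrix.zero_apply]
      exact hasDerivAt_const _ _
    | succ n ih =>
      intro k l
      simp only [pow_succ, dpw, Matrix.add_apply, Matrix.mul_apply, ← Finset.sum_add_distrib]
      exact HasDerivAt.fun_sum fun c _ => (ih k c).mul (hC c l)
  have hp : ∀ k l, HasDerivAt (fun r => pmx p (cg (γ r)) k l)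
      ((∑ n ∈ range (p.natDegree + 1), p.coeff n • dpw (γ θ) h n) k l) θ := fun k l => by
    simp only [pmx, Matrix.sum_apply, Matrix.smul_apply, smul_eq_mul]
    exact HasDerivAt.fun_sum fun n _ => (hP n k l).const_mul _
  simp only [ym, dym, Matrix.smul_apply, Matrix.add_apply, Matrix.mul_apply, smul_eq_mul,
    ← Finset.sum_add_distrib]
  exact (HasDerivAt.fun_sum fun c _ => (hm a c).mul (hp c i)).const_mul _

theorem hasDerivAt_ypr {Y : ℝ → Matrix (Fin M) (Fin N) ℝ} {Z : Matrix (Fin M) (Fin N) ℝ} {θ : ℝ}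
    (hY : ∀ a i, HasDerivAt (fun r => Y r a i) (Z a i) θ) (β : ℝ) (a : Fin M → ℝ) :
    HasDerivAt (fun r => ypr β a (Y r)) (ydv β a (Y θ) Z) θ := by
  have hv : ∀ σ i, HasDerivAt (fun r => (Y r *ᵥ sv σ) i) ((Z *ᵥ sv σ) i) θ := fun σ i => by
    simp only [Matrix.mulVec, dotProduct]
    exact HasDerivAt.fun_sum fun c _ => (hY i c).mul_const _
  have he : ∀ σ, HasDerivAt (fun r => Real.exp (yen β a (Y r) σ))
      (Real.exp (yen β a (Y θ) σ) * (β * ∑ i, a i * (Y θ *ᵥ sv σ) i * (Z *ᵥ sv σ) i)) θ := fun σ => by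
    refine HasDerivAt.exp ?_
    simp only [yen]
    refine ((HasDerivAt.fun_sum fun i _ => ((hv σ i).pow 2).const_mul (a i)).const_mul (β / 2)).congr_deriv ?_
    rw [Finset.mul_sum, Finset.mul_sum]
    refine Finset.sum_congr rfl fun i _ => ?_
    push_cast
    ring
  have hS := ysum_pos β a (Y θ)
  have h2 : (0 : ℝ) < ((2 : ℝ) ^ N)⁻¹ := by positivity
  refine ((((HasDerivAt.fun_sum fun σ (_ : σ ∈ (univ : Finset (Fin N → Bool))) => he σ).const_mul
    ((2 : ℝ) ^ N)⁻¹).log (by positivity)).const_mul (1 / (N : ℝ))).congr_deriv ?_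
  simp only [ydv]
  rw [mul_div_mul_left _ _ h2.ne', Finset.sum_congr rfl fun σ _ => mul_left_comm (Real.exp _) β _,
    ← Finset.mul_sum]
  ring

theorem continuous_ym (p : Polynomial ℝ) : Continuous fun g : Fin (M * N) → ℝ => ym p g := by
  unfold ym pmx cg gram mat
  fun_prop

theorem continuous_dym (p : Polynomial ℝ) :
    Continuous fun q : (Fin (M * N) → ℝ) × (Fin (M * N) → ℝ) => dym p q.1 q.2 := by
  have hm : Continuous fun g : Fin (M * N) → ℝ => mat g := by unfold mat; fun_prop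
  have hC : Continuous fun q : (Fin (M * N) → ℝ) × (Fin (M * N) → ℝ) => cg q.1 := by
    unfold cg gram mat; fun_prop
  have hd : ∀ l, Continuous fun q : (Fin (M * N) → ℝ) × (Fin (M * N) → ℝ) => dpw q.1 q.2 l := by
    intro l
    induction l with
    | zero => simp only [dpw]; exact continuous_const
    | succ l ih =>
      simp only [dpw]
      refine (ih.matrix_mul hC).add ((hC.pow l).matrix_mul ?_)
      unfold dcg mat; fun_prop
  unfold dym pmx
  have h1 := hm.comp (continuous_fst (X := Fin (M * N) → ℝ) (Y := Fin (M * N) → ℝ))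
  have h2 := hm.comp (continuous_snd (X := Fin (M * N) → ℝ) (Y := Fin (M * N) → ℝ))
  exact ((h2.matrix_mul (continuous_finsetSum _ fun l _ => (hC.pow l).const_smul (p.coeff l))).add
    (h1.matrix_mul (continuous_finsetSum _ fun l _ => (hd l).const_smul (p.coeff l)))).const_smul ((√(N : ℝ))⁻¹)

theorem continuous_ypr (β : ℝ) (a : Fin M → ℝ) :
    Continuous fun Y : Matrix (Fin M) (Fin N) ℝ => ypr β a Y := by
  have h2 : (0 : ℝ) < ((2 : ℝ) ^ N)⁻¹ := by positivity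
  refine continuous_const.mul (Continuous.log ?_ fun Y => (mul_pos h2 (ysum_pos β a Y)).ne')
  simp only [yen, Matrix.mulVec, dotProduct]
  fun_prop

theorem continuous_ydv (β : ℝ) (a : Fin M → ℝ) :
    Continuous fun q : Matrix (Fin M) (Fin N) ℝ × Matrix (Fin M) (Fin N) ℝ => ydv β a q.1 q.2 := by
  refine continuous_const.mul (Continuous.div ?_ ?_ fun q => (ysum_pos β a q.1).ne')
  · simp only [yen, Matrix.mulVec, dotProduct]
    fun_prop
  · simp only [yen, Matrix.mulVec, dotProduct]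
    fun_prop

/-- The derivative of the frame pressure as a linear map in the direction. -/
theorem ydv_dym_linear (β : ℝ) (a : Fin M → ℝ) (p : Polynomial ℝ) (g : Fin (M * N) → ℝ) :
    ∃ v : Fin (M * N) → ℝ, ∀ h, ydv β a (ym p g) (dym p g h) = ∑ j, h j * v j := by
  have hadd : ∀ h h', dpw g (h + h') = fun l => dpw g h l + dpw g h' l := fun h h' => by
    funext l
    induction l with
    | zero => simp [dpw]
    | succ l ih =>
      have hm : mat (h + h') = mat h + mat h' := rfl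
      simp only [dpw, ih, dcg, hm, Matrix.transpose_add, Matrix.add_mul, Matrix.mul_add, smul_add]
      abel
  have hsmul : ∀ (c : ℝ) h, dpw g (c • h) = fun l => c • dpw g h l := fun c h => by
    funext l
    induction l with
    | zero => simp [dpw]
    | succ l ih =>
      have hm : mat (c • h) = c • mat h := rfl
      simp only [dpw, ih, dcg, hm, Matrix.transpose_smul, Matrix.smul_mul, Matrix.mul_smul, smul_add,
        smul_comm ((N : ℝ))⁻¹ c]
      simp only [← smul_add, Matrix.mul_smul]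
  let L : (Fin (M * N) → ℝ) →ₗ[ℝ] ℝ :=
    { toFun := fun h => ydv β a (ym p g) (dym p g h)
      map_add' := fun h h' => by
        have hm : mat (h + h') = mat h + mat h' := rfl
        simp only [ydv, dym, hadd, hm, smul_add, Finset.sum_add_distrib, Matrix.mul_add, Matrix.add_mul,
          Matrix.add_mulVec, Pi.add_apply, mul_add, add_div]
        ring
      map_smul' := fun c h => by
        have hm : mat (c • h) = c • mat h := rfl
        simp only [ydv, dym, hsmul, hm, smul_comm (_ : ℝ) c, ← Finset.smul_sum, Matrix.mul_smul,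
          Matrix.smul_mul, ← smul_add, Matrix.smul_mulVec, Pi.smul_apply, smul_eq_mul, RingHom.id_apply]
        simp only [mul_left_comm _ c, ← Finset.mul_sum]
        ring }
  refine ⟨fun j => L fun i => if j = i then 1 else 0, fun h => ?_⟩
  have := L.pi_apply_eq_sum_univ h
  simpa [smul_eq_mul, L] using this

theorem abs_frame_dv_le {β α : ℝ} {a : Fin M → ℝ} (hα : ∀ i, |a i| ≤ α) (hα0 : 0 ≤ α) (hN : 0 < N)
    (p : Polynomial ℝ) (g h : Fin (M * N) → ℝ) :
    |ydv β a (ym p g) (dym p g h)| ≤ |β| * α * csum p ^ 2 * (2 * p.natDegree + 1)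
      * (1 + ‖cg g‖) ^ (2 * p.natDegree + 2) * √(∑ j, h j ^ 2) / √(N : ℝ) := by
  refine (abs_ydv_le hα hα0 hN _ _).trans ?_
  refine (mul_le_mul (mul_le_mul_of_nonneg_left (norm_ym_le p g) (by positivity)) (norm_dym_le p g h hN)
    (norm_nonneg _) (mul_nonneg (by positivity) (mul_nonneg (csum_nonneg p) (by positivity)))).trans_eq ?_
  ring

theorem abs_frame_dv_le_env {β α : ℝ} {a : Fin M → ℝ} (hα : ∀ i, |a i| ≤ α) (hα0 : 0 ≤ α) (hN : 0 < N)
    (p : Polynomial ℝ) (g h : Fin (M * N) → ℝ) :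
    |ydv β a (ym p g) (dym p g h)| ≤ |β| * α * csum p ^ 2 * (2 * p.natDegree + 1) *
      (env g ^ (2 * p.natDegree + 2) * env h ^ (2 * p.natDegree + 2)) := by
  refine (abs_frame_dv_le hα hα0 hN p g h).trans ?_
  have hs : √(∑ j, h j ^ 2) / √(N : ℝ) ≤ env h ^ (2 * p.natDegree + 2) := by
    refine (div_le_self (Real.sqrt_nonneg _) (Real.one_le_sqrt.2 (by exact_mod_cast hN))).trans ?_
    refine le_trans ?_ (le_self_pow₀ (one_le_env h) (by omega))
    rw [Real.sqrt_le_left (env_nonneg h)]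
    nlinarith [sumsq_le_env h, one_le_env h]
  rw [mul_div_assoc, mul_assoc _ ((1 + ‖cg g‖) ^ (2 * p.natDegree + 2))]
  refine mul_le_mul_of_nonneg_left (mul_le_mul (pow_le_pow_left₀ (by positivity) (norm_cg_le_env g hN) _)
    hs (by positivity) (pow_nonneg (env_nonneg g) _)) ?_
  positivity

theorem abs_frame_le_env {β α : ℝ} {a : Fin M → ℝ} (hα : ∀ i, |a i| ≤ α) (hα0 : 0 ≤ α) (hN : 0 < N)
    (p : Polynomial ℝ) (g : Fin (M * N) → ℝ) :
    |ypr β a (ym p g)| ≤ |β| / 2 * α * csum p ^ 2 * env g ^ (2 * (p.natDegree + 1)) := by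
  refine (abs_ypr_le hα hα0 hN _).trans ?_
  rw [mul_assoc _ (csum p ^ 2)]
  refine mul_le_mul_of_nonneg_left ?_ (by positivity)
  rw [mul_comm 2 (p.natDegree + 1), pow_mul, ← mul_pow]
  exact pow_le_pow_left₀ (norm_nonneg _) ((norm_ym_le p g).trans (mul_le_mul_of_nonneg_left
    (pow_le_pow_left₀ (by positivity) (norm_cg_le_env g hN) _) (csum_nonneg p))) 2

/-- Envelope of the squared gradient. -/
theorem growth_le (g : Fin (M * N) → ℝ) (hN : 0 < N) (D : ℕ) {t : ℝ} (ht : 0 < t) :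
    (1 + ‖cg g‖) ^ D ≤ 2 ^ D * (1 + t * N + (tm (2 * D) g + 1) / t) := by
  set x := ‖cg g‖
  have hx : 0 ≤ x := norm_nonneg _
  have hN1 : (1 : ℝ) ≤ N := by exact_mod_cast hN
  have e1 : (1 + x) ^ D ≤ 2 ^ D * (1 + x ^ D) := by
    rcases le_total x 1 with h | h
    · calc (1 + x) ^ D ≤ 2 ^ D := pow_le_pow_left₀ (by linarith) (by linarith) D
        _ ≤ 2 ^ D * (1 + x ^ D) := le_mul_of_one_le_right (by positivity) (by nlinarith [pow_nonneg hx D])
    · calc (1 + x) ^ D ≤ (2 * x) ^ D := pow_le_pow_left₀ (by linarith) (by linarith) D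
        _ = 2 ^ D * x ^ D := mul_pow _ _ _
        _ ≤ 2 ^ D * (1 + x ^ D) := mul_le_mul_of_nonneg_left (by linarith) (by positivity)
  have h := norm_cg_pow_le g hN (2 * D)
  have hsq : x ^ (2 * D) = (x ^ D) ^ 2 := by rw [mul_comm, pow_mul]
  have e2 : x ^ D ≤ t * N + (tm (2 * D) g + 1) / t := by
    rw [← sub_le_iff_le_add', le_div_iff₀ ht]
    refine le_of_mul_le_mul_right ?_ (lt_of_lt_of_le zero_lt_one hN1)
    nlinarith [sq_nonneg (x ^ D - t * N)]
  exact e1.trans (mul_le_mul_of_nonneg_left (by linarith) (by positivity))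

/-- Second moment of the directional derivative. -/
theorem frame_second_moment {β α : ℝ} {a : Fin M → ℝ} (hα : ∀ i, |a i| ≤ α) (hα0 : 0 ≤ α) (hN : 0 < N)
    (p : Polynomial ℝ) {t : ℝ} (ht : 0 < t) (g : Fin (M * N) → ℝ) :
    ∫ h, ydv β a (ym p g) (dym p g h) ^ 2 ∂gs (M * N)
      ≤ (|β| * α * csum p ^ 2 * (2 * p.natDegree + 1)) ^ 2 * 2 ^ (4 * p.natDegree + 4) / N
        * (1 + t * N + (tm (2 * (4 * p.natDegree + 4)) g + 1) / t) := by
  have hN' : (0 : ℝ) < N := by exact_mod_cast hN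
  set d := p.natDegree
  set D := 4 * d + 4 with hD
  set K₀ := |β| * α * csum p ^ 2 * (2 * (d : ℝ) + 1) with hK₀
  obtain ⟨v, hv⟩ := ydv_dym_linear β a p g
  simp only [hv]
  refine (lin_second_moment v (B := K₀ ^ 2 * (1 + ‖cg g‖) ^ D / N) (by positivity) fun h => ?_).trans ?_
  · rw [← hv, ← sq_abs]
    refine (pow_le_pow_left₀ (abs_nonneg _) (abs_frame_dv_le hα hα0 hN p g h) 2).trans_eq ?_
    rw [div_pow, mul_pow, mul_pow, Real.sq_sqrt (Finset.sum_nonneg fun j _ => sq_nonneg _),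
      Real.sq_sqrt hN'.le, ← pow_mul, show (2 * d + 2) * 2 = D by omega]
    ring
  · rw [div_mul_eq_mul_div, mul_assoc]
    exact div_le_div_of_nonneg_right
      (mul_le_mul_of_nonneg_left (growth_le g hN D ht) (sq_nonneg _)) hN'.le

/-- The pressure along a rotated pair. -/
theorem hasDerivAt_pair (β : ℝ) (a : Fin M → ℝ) (p : Polynomial ℝ) (g h : Fin (M * N) → ℝ) (θ : ℝ) :
    HasDerivAt (fun r => ypr β a (ym p (pairRot r (g, h)).1))
      (ydv β a (ym p (pairRot θ (g, h)).1) (dym p (pairRot θ (g, h)).1 (pairRot θ (g, h)).2)) θ := by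
  refine hasDerivAt_ypr (fun b i => hasDerivAt_ym (fun j => ?_) p b i) β a
  simp only [pairRot, Pi.add_apply, Pi.smul_apply, smul_eq_mul]
  exact ((Real.hasDerivAt_cos θ).mul_const (g j)).add ((Real.hasDerivAt_sin θ).mul_const (h j))

/-- The centred pressure is square integrable. -/
theorem frame_integrable {β α : ℝ} {a : Fin M → ℝ} (hα : ∀ i, |a i| ≤ α) (hα0 : 0 ≤ α) (hN : 0 < N)
    (p : Polynomial ℝ) (c : ℝ) :
    Integrable (fun g : Fin (M * N) → ℝ => (ypr β a (ym p g) - c) ^ 2) (gs (M * N)) := by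
  set d := p.natDegree
  refine (((integrable_env_pow (2 * (2 * (d + 1)))).const_mul (2 * (|β| / 2 * α * csum p ^ 2) ^ 2)).fun_add
    (integrable_const (2 * c ^ 2))).mono'
    ((((continuous_ypr β a).comp (continuous_ym p)).sub continuous_const).pow 2).aestronglyMeasurable
    (ae_of_all _ fun g => ?_)
  rw [Real.norm_eq_abs, abs_of_nonneg (sq_nonneg _)]
  have := pow_le_pow_left₀ (abs_nonneg _) (abs_frame_le_env (β := β) hα hα0 hN p g) 2
  rw [sq_abs, mul_pow, ← pow_mul, mul_comm (2 * (d + 1)) 2] at this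
  nlinarith [sq_nonneg (ypr β a (ym p g) + c)]

theorem continuous_frame (β : ℝ) (a : Fin M → ℝ) (p : Polynomial ℝ) :
    Continuous (fun g : Fin (M * N) → ℝ => ypr β a (ym p g)) ∧
    Continuous fun q : (Fin (M * N) → ℝ) × (Fin (M * N) → ℝ) =>
      ydv β a (ym p q.1) (dym p q.1 q.2) := by
  refine ⟨(continuous_ypr β a).comp (continuous_ym p), ?_⟩
  have h1 : Continuous fun q : (Fin (M * N) → ℝ) × (Fin (M * N) → ℝ) => (ym p q.1, dym p q.1 q.2) :=
    ((continuous_ym p).comp continuous_fst).prodMk (continuous_dym p)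
  have h2 := (continuous_ydv (N := N) β a).comp h1
  simp only [Function.comp_def] at h2
  exact h2

/-- Pisier's inequality for the frame pressure. -/
theorem frame_variance {β α : ℝ} {a : Fin M → ℝ} (hα : ∀ i, |a i| ≤ α) (hα0 : 0 ≤ α) (hN : 0 < N)
    (p : Polynomial ℝ) {t : ℝ} (ht : 0 < t) :
    Integrable (fun g : Fin (M * N) → ℝ =>
        (ypr β a (ym p g) - ∫ g', ypr β a (ym p g') ∂gs (M * N)) ^ 2) (gs (M * N)) ∧
      ∫ g, (ypr β a (ym p g) - ∫ g', ypr β a (ym p g') ∂gs (M * N)) ^ 2 ∂gs (M * N)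
        ≤ (Real.pi / 2) ^ 2 * (((|β| * α * csum p ^ 2 * (2 * p.natDegree + 1)) ^ 2
            * 2 ^ (4 * p.natDegree + 4)) / N
          * (1 + t * N + (emom M N [2 * (4 * p.natDegree + 4)] + 1) / t)) := by
  have iT : Integrable (fun g : Fin (M * N) → ℝ => (tm (2 * (4 * p.natDegree + 4)) g + 1) / t)
      (gs (M * N)) := ((polyB_tm _).integrable.fun_add (integrable_const 1)).div_const t
  have iB := ((integrable_const (1 + t * (N : ℝ))).fun_add iT).const_mul
    ((|β| * α * csum p ^ 2 * (2 * p.natDegree + 1)) ^ 2 * 2 ^ (4 * p.natDegree + 4) / N)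
  obtain ⟨hFc, hDc⟩ := continuous_frame (N := N) β a p
  have hP := pisier (F := fun g => ypr β a (ym p g)) (D := fun g h => ydv β a (ym p g) (dym p g h))
    hFc (abs_frame_le_env hα hα0 hN p) hDc
    (abs_frame_dv_le_env hα hα0 hN p) (hasDerivAt_pair β a p) iB (frame_second_moment hα hα0 hN p ht)
  refine ⟨frame_integrable hα hα0 hN p _, hP.trans_eq ?_⟩
  rw [integral_const_mul, integral_add (integrable_const _) iT, integral_div,
    integral_add (polyB_tm _).integrable (integrable_const 1)]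
  simp [emom, tprod]

/-- Variance bound for the frame pressure, uniform in the spectrum. -/
theorem ypr_concentrates (β α : ℝ) (hα0 : 0 ≤ α) (p : Polynomial ℝ) {η : ℝ} (hη : 0 < η) :
    ∀ᶠ N : ℕ in atTop, ∀ a : Fin ⌊(1 : ℝ) * N⌋₊ → ℝ, (∀ i, |a i| ≤ α) →
      Integrable (fun g : Fin (⌊(1 : ℝ) * N⌋₊ * N) → ℝ =>
        (ypr β a (ym p g) - ∫ g', ypr β a (ym p g') ∂gs (⌊(1 : ℝ) * N⌋₊ * N)) ^ 2)
        (gs (⌊(1 : ℝ) * N⌋₊ * N)) ∧
      ∫ g, (ypr β a (ym p g) - ∫ g', ypr β a (ym p g') ∂gs (⌊(1 : ℝ) * N⌋₊ * N)) ^ 2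
        ∂gs (⌊(1 : ℝ) * N⌋₊ * N) ≤ η := by
  obtain ⟨m, -, -, hlim⟩ := moments_limit 1 zero_le_one
  set j := 2 * (4 * p.natDegree + 4)
  set T := (Real.pi / 2) ^ 2 * ((|β| * α * csum p ^ 2 * (2 * p.natDegree + 1)) ^ 2
    * 2 ^ (4 * p.natDegree + 4))
  have hT : 0 ≤ T := by positivity
  set t := η / (2 * (T + 1)) with htdef
  have ht : 0 < t := by positivity
  have h1 : Tendsto (fun N : ℕ => (1 + (emom ⌊(1 : ℝ) * N⌋₊ N [j] + 1) / t) * (N : ℝ)⁻¹) atTop (𝓝 0) := by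
    simpa using ((((hlim [j]).add_const 1).div_const t).const_add 1).mul
      (tendsto_inv_atTop_zero.comp tendsto_natCast_atTop_atTop)
  filter_upwards [eventually_gt_atTop 0, h1.eventually (ge_mem_nhds ht)] with N hN hsmall a ha
  obtain ⟨hi, hv⟩ := frame_variance (β := β) ha hα0 hN p ht
  refine ⟨hi, hv.trans ?_⟩
  have hN' : (0 : ℝ) < N := by exact_mod_cast hN
  calc (Real.pi / 2) ^ 2 * ((|β| * α * csum p ^ 2 * (2 * p.natDegree + 1)) ^ 2
        * 2 ^ (4 * p.natDegree + 4) / N * (1 + t * N + (emom ⌊(1 : ℝ) * N⌋₊ N [j] + 1) / t))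
      = T * ((1 + (emom ⌊(1 : ℝ) * N⌋₊ N [j] + 1) / t) * (N : ℝ)⁻¹ + t) := by
        simp only [T]; field_simp; ring
    _ ≤ T * (t + t) := mul_le_mul_of_nonneg_left (by linarith) hT
    _ ≤ η := by
        rw [htdef, ← two_mul, ← mul_assoc, ← mul_div_assoc, div_le_iff₀ (by positivity)]
        nlinarith

end Vale.Agent.P166
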