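import Vale.Agent.P166.Deterministic

/-!
A polynomial whose square times `x` is close to one, and the absence of an atom at zero in the
Marchenko-Pastur law of ratio one.
-/

open MeasureTheory Filter Topology

namespace Vale.Agent.P166

theorem exists_root_poly {δ : ℝ} (hδ : 0 < δ) (hδ' : δ ≤ 1 / 30) :
    ∃ p : Polynomial ℝ, ∀ x ∈ Set.Icc (0 : ℝ) 6,
      x * p.eval x ^ 2 ≤ 1 ∧ 1 - x * p.eval x ^ 2 ≤ 13 * δ + ramp δ δ x := by
  have hpos : ∀ x : ℝ, 0 < max x δ := fun x => lt_of_lt_of_le hδ (le_max_right _ _)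
  have hg : Continuous fun x : ℝ => (√(max x δ))⁻¹ :=
    (Real.continuous_sqrt.comp (continuous_id.max continuous_const)).inv₀
      fun x => (Real.sqrt_pos.2 (hpos x)).ne'
  obtain ⟨p, hp⟩ := exists_polynomial_near_of_continuousOn 0 6 _ hg.continuousOn δ hδ
  refine ⟨Polynomial.C (1 + 3 * δ)⁻¹ * p, fun x hx => ?_⟩
  set g := (√(max x δ))⁻¹
  set u := √x * p.eval x
  have hs3 : √x ≤ 3 := by rw [Real.sqrt_le_left (by norm_num)]; linarith [hx.2]
  have hpx := abs_lt.1 (hp x hx)
  have hgpos : 0 < g := inv_pos.2 (Real.sqrt_pos.2 (hpos x))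
  have h1 : √x * g ≤ 1 := by
    rw [mul_inv_le_iff₀ (Real.sqrt_pos.2 (hpos x)), one_mul]
    exact Real.sqrt_le_sqrt (le_max_left _ _)
  have hs0 : 0 ≤ √x := Real.sqrt_nonneg _
  have hu2 : u ≤ 1 + 3 * δ := by
    nlinarith [mul_le_mul_of_nonneg_left hpx.2.le hs0, mul_le_mul_of_nonneg_right hs3 hδ.le]
  have hu1 : -(3 * δ) ≤ u := by
    nlinarith [mul_le_mul_of_nonneg_left hpx.1.le hs0, mul_le_mul_of_nonneg_right hs3 hδ.le,
      mul_nonneg hs0 hgpos.le]
  have he : x * ((Polynomial.C (1 + 3 * δ)⁻¹ * p).eval x) ^ 2 = (u / (1 + 3 * δ)) ^ 2 := by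
    rw [Polynomial.eval_mul, Polynomial.eval_C, div_pow, mul_pow, mul_pow, Real.sq_sqrt hx.1]
    field_simp
  rw [he]
  refine ⟨?_, ?_⟩
  · rw [div_pow, div_le_one (by positivity)]
    nlinarith
  · rcases le_total x δ with hxd | hxd
    · rw [ramp_lower hδ hxd]
      nlinarith [sq_nonneg (u / (1 + 3 * δ))]
    · have hg1 : √x * g = 1 := by
        show √x * (√(max x δ))⁻¹ = 1
        rw [max_eq_left hxd, mul_inv_cancel₀ (Real.sqrt_pos.2 (by linarith)).ne']
      have hu3 : 1 - 3 * δ ≤ u := by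
        nlinarith [mul_le_mul_of_nonneg_left hpx.1.le hs0, mul_le_mul_of_nonneg_right hs3 hδ.le]
      have hd : 0 < 1 + 3 * δ := by linarith
      have hq : 1 - 6 * δ ≤ u / (1 + 3 * δ) := by
        rw [le_div_iff₀ hd]; nlinarith
      have h0 : 0 ≤ 1 - 6 * δ := by linarith
      have := pow_le_pow_left₀ h0 hq 2
      nlinarith [(ramp_mem δ δ x).1, sq_nonneg δ]

theorem mp_one_catalan {m : ℕ → ℝ} (hm : MPMoments 1 m) : ∀ k, m k = catalan k := by
  intro k
  induction k using Nat.strong_induction_on with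
  | _ k ih =>
    rcases k with _ | k
    · simp [hm.1]
    · rw [hm.2 k, catalan_succ, Finset.sum_fin_eq_sum_range]
      push_cast
      rw [Finset.sum_range_succ' _ k, one_mul, add_comm]
      congr 1
      · refine Finset.sum_congr rfl fun p hp => ?_
        have := Finset.mem_range.1 hp
        rw [dif_pos (by omega), ih (p + 1) (by omega), ih (k - 1 - p) (by omega)]
        simp [show k - (p + 1) = k - 1 - p by omega]
      · rw [dif_pos (by omega), ih k (by omega)]
        simp

theorem catalan_ratio (j : ℕ) : ((j : ℝ) + 2) * catalan (j + 1) = (4 * j + 2) * catalan j := by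
  have h : (j + 1) * ((j + 2) * catalan (j + 1)) = (j + 1) * ((4 * j + 2) * catalan j) := by
    have h1 := succ_mul_catalan_eq_centralBinom (j + 1)
    have h2 := succ_mul_catalan_eq_centralBinom j
    have h3 := Nat.succ_mul_centralBinom_succ j
    rw [← h1, ← h2] at h3
    rw [show j + 1 + 1 = j + 2 by omega] at h3
    rw [h3]; ring
  exact_mod_cast Nat.eq_of_mul_eq_mul_left (Nat.succ_pos j) h

/-- The Marchenko-Pastur law of ratio one has no atom at zero. -/
theorem mp_one_no_atom {m : ℕ → ℝ} (hm : MPMoments 1 m) {μ : Measure ℝ} [IsProbabilityMeasure μ]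
    (hmom : ∀ k, ∫ x, x ^ k ∂μ = m k) (hsupp : ∀ᵐ x ∂μ, x ∈ Set.Icc (0 : ℝ) 4) :
    μ {0} = 0 := by
  have hi : ∀ n j : ℕ, Integrable (fun x : ℝ => x ^ j * (1 - x / 4) ^ n) μ := fun n j => by
    refine Integrable.of_bound (by fun_prop) (4 ^ j) (hsupp.mono fun x hx => ?_)
    rw [Real.norm_eq_abs, abs_mul, abs_pow, abs_pow]
    refine (mul_le_mul (pow_le_pow_left₀ (abs_nonneg _) ((abs_of_nonneg hx.1).trans_le hx.2) j)
      (pow_le_one₀ (abs_nonneg _) (by rw [abs_le]; constructor <;> linarith [hx.1, hx.2])) (by positivity)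
      (by positivity)).trans_eq (mul_one _)
  set b : ℕ → ℕ → ℝ := fun n j => ∫ x, x ^ j * (1 - x / 4) ^ n ∂μ with hb
  have hstep : ∀ n j, b (n + 1) j = b n j - b n (j + 1) / 4 := fun n j => by
    simp only [b]
    rw [← integral_div, ← integral_sub (hi n j) ((hi n (j + 1)).div_const 4)]
    exact integral_congr_ae (ae_of_all _ fun x => by ring)
  have hratio : ∀ n j : ℕ, ((n : ℝ) + j + 2) * b n (j + 1) = (4 * j + 2) * b n j := by
    intro n
    induction n with
    | zero =>
      intro j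
      simp only [b, pow_zero, mul_one, hmom, mp_one_catalan hm, Nat.cast_zero, zero_add]
      exact catalan_ratio j
    | succ n ih =>
      intro j
      have e1 := ih j
      have e2 := ih (j + 1)
      have h1 := hstep n j
      have h2 := hstep n (j + 1)
      push_cast at e2 ⊢
      rw [h1, h2]
      have hne : (n : ℝ) + j + 2 ≠ 0 := by positivity
      linear_combination e1 - (1 / 4) * e2
  have ha : ∀ n : ℕ, b n 0 ^ 4 * (n + 1) ≤ 1 := by
    intro n
    induction n with
    | zero => simp [b]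
    | succ n ih =>
      have h := hratio n 0
      have h1 := hstep n 0
      have hd : (0 : ℝ) < 2 * n + 4 := by positivity
      have e : b (n + 1) 0 = b n 0 * ((2 * n + 3) / (2 * n + 4)) := by
        rw [← mul_div_assoc, eq_div_iff hd.ne', h1]
        push_cast at h
        linear_combination (-1 / 2 : ℝ) * h
      refine le_trans ?_ ih
      rw [e, mul_pow, mul_assoc]
      refine mul_le_mul_of_nonneg_left ?_ (by positivity)
      rw [div_pow, div_mul_eq_mul_div, div_le_iff₀ (by positivity)]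
      push_cast
      have hn : (0 : ℝ) ≤ n := Nat.cast_nonneg n
      nlinarith [pow_nonneg hn 2, pow_nonneg hn 3, pow_nonneg hn 4, pow_nonneg hn 5]
  have hle : ∀ n : ℕ, μ.real {0} ≤ b n 0 := fun n => by
    rw [show μ.real {0} = ∫ x, Set.indicator {0} (fun _ => (1 : ℝ)) x ∂μ by
      rw [integral_indicator_const _ (measurableSet_singleton 0), smul_eq_mul, mul_one]]
    refine integral_mono_ae ((integrable_const _).indicator (measurableSet_singleton 0)) (hi n 0) ?_
    filter_upwards [hsupp] with x hx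
    by_cases hx0 : x = 0
    · subst hx0; simp
    · rw [Set.indicator_of_notMem (by simpa using hx0), pow_zero, one_mul]
      exact pow_nonneg (by linarith [hx.2]) n
  have hz : μ.real {0} = 0 := by
    by_contra hne
    have hpos : 0 < μ.real {0} := lt_of_le_of_ne measureReal_nonneg (Ne.symm hne)
    obtain ⟨n, hn⟩ := exists_nat_gt (1 / μ.real {0} ^ 4)
    rw [div_lt_iff₀ (by positivity)] at hn
    nlinarith [ha n, pow_le_pow_left₀ hpos.le (hle n) 4, mul_le_mul_of_nonneg_right
      (pow_le_pow_left₀ hpos.le (hle n) 4) (Nat.cast_nonneg n : (0 : ℝ) ≤ n), pow_pos hpos 4]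
  rwa [measureReal_eq_zero_iff] at hz

/-- The cut-off at zero has small integral. -/
theorem exists_cut {m : ℕ → ℝ} (hm : MPMoments 1 m) {μ : Measure ℝ} [IsProbabilityMeasure μ]
    (hmom : ∀ k, ∫ x, x ^ k ∂μ = m k) (hsupp : ∀ᵐ x ∂μ, x ∈ Set.Icc (0 : ℝ) 4) {ε : ℝ} (hε : 0 < ε) :
    ∃ δ, 0 < δ ∧ δ ≤ 1 / 30 ∧ 13 * δ + ∫ x, ramp δ δ x ∂μ < ε := by
  set d : ℕ → ℝ := fun n => 1 / ((n : ℝ) + 1)
  have hd0 : ∀ n, 0 < d n := fun n => by positivity
  have hd : Tendsto d atTop (𝓝 0) := tendsto_one_div_add_atTop_nhds_zero_nat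
  have hnull := mp_one_no_atom hm hmom hsupp
  have hI : Tendsto (fun n => ∫ x, ramp (d n) (d n) x ∂μ) atTop (𝓝 0) := by
    have := tendsto_integral_of_dominated_convergence (μ := μ) (F := fun n x => ramp (d n) (d n) x)
      (f := fun _ => (0 : ℝ)) (fun _ => 1) (fun n => (continuous_ramp _ _).aestronglyMeasurable)
      (integrable_const 1) (fun n => ae_of_all _ fun x => by
        rw [Real.norm_eq_abs, abs_of_nonneg (ramp_mem _ _ _).1]; exact (ramp_mem _ _ _).2) ?_
    · simpa using this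
    · have hne : ∀ᵐ x ∂μ, x ≠ 0 := by rw [ae_iff]; simpa using hnull
      filter_upwards [hsupp, hne] with x hx hx0
      have hpos : 0 < x := lt_of_le_of_ne hx.1 (Ne.symm hx0)
      refine tendsto_const_nhds.congr' ?_
      filter_upwards [hd.eventually (ge_mem_nhds (half_pos hpos))] with n hn
      exact (ramp_upper (hd0 n) (by linarith)).symm
  have hs : Tendsto (fun n => 13 * d n + ∫ x, ramp (d n) (d n) x ∂μ) atTop (𝓝 0) := by
    simpa using (hd.const_mul 13).add hI
  obtain ⟨n, h1, h2⟩ := ((hd.eventually (ge_mem_nhds (show (0 : ℝ) < 1 / 30 by norm_num))).and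
    (hs.eventually (gt_mem_nhds hε))).exists
  exact ⟨d n, hd0 n, h1, h2⟩

end Vale.Agent.P166
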