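import Vale.Agent.P166.Conc.Bud
import Vale.Agent.P166.Conc.Poly

/-!
A deterministic equivalent of the pressure at every temperature and for every bounded spectrum.
-/

open MeasureTheory ProbabilityTheory Filter Topology Matrix Finset
open scoped Matrix.Norms.L2Operator

namespace Vale.Agent.P166

section unique

variable {N : ℕ}

/-- There is at most one left-invariant law on orthogonal matrices. -/
theorem leftInv_unique {π₁ π₂ : Measure (Fin N → Fin N → ℝ)} [IsProbabilityMeasure π₁]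
    [IsProbabilityMeasure π₂] (h₁ : LeftInv π₁) (h₂ : LeftInv π₂) : π₁ = π₂ := by
  suffices h : ∀ (π : Measure (Fin N → Fin N → ℝ)) [IsProbabilityMeasure π], LeftInv π →
      ∀ s, MeasurableSet s → π s = π₂ {V | (fun i k => V k i) ∈ s} by
    ext s hs
    rw [h π₁ h₁ s hs, h π₂ h₂ s hs]
  intro π _ hπ s hs
  set Φ : (Fin N → Fin N → ℝ) × (Fin N → Fin N → ℝ) → (Fin N → Fin N → ℝ) :=
    fun q i k => ((Matrix.of q.1)ᵀ * Matrix.of q.2) i k with hΦ
  have hm : Measurable Φ := by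
    refine measurable_pi_lambda _ fun i => measurable_pi_lambda _ fun k => ?_
    simp only [hΦ, Matrix.mul_apply, Matrix.transpose_apply, Matrix.of_apply]
    fun_prop
  have hmul : ∀ Q : Matrix (Fin N) (Fin N) ℝ,
      Measurable fun (U : Fin N → Fin N → ℝ) i k => (Q * Matrix.of U) i k := fun Q => by
    refine measurable_pi_lambda _ fun i => measurable_pi_lambda _ fun k => ?_
    simp only [Matrix.mul_apply, Matrix.of_apply]
    fun_prop
  have hT : MeasurableSet {V : Fin N → Fin N → ℝ | (fun i k => V k i) ∈ s} :=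
    (show Measurable fun (V : Fin N → Fin N → ℝ) i k => V k i by fun_prop) hs
  have e1 : (π₂.prod π) (Φ ⁻¹' s) = π s := by
    rw [Measure.prod_apply (hm hs), lintegral_congr_ae (g := fun _ => π s) ?_]
    · simp
    · filter_upwards [h₂.1] with V hV
      have hQ : ((Matrix.of V)ᵀ)ᵀ * (Matrix.of V)ᵀ = 1 := by
        rw [Matrix.transpose_transpose]; exact mul_eq_one_comm.1 hV
      conv_rhs => rw [← hπ.2 _ hQ, Measure.map_apply (hmul _) hs]
      rfl
  have e2 : (π₂.prod π) (Φ ⁻¹' s) = π₂ {V | (fun i k => V k i) ∈ s} := by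
    rw [Measure.prod_apply_symm (hm hs),
      lintegral_congr_ae (g := fun _ => π₂ {V | (fun i k => V k i) ∈ s}) ?_]
    · simp
    · filter_upwards [hπ.1] with U hU
      conv_lhs => rw [← h₂.2 _ hU, Measure.map_apply (hmul _) (measurable_prodMk_right (hm hs))]
      congr 1
      ext V
      simp only [Set.mem_preimage, Set.mem_ofPred_eq, hΦ]
      refine Eq.to_iff (congrArg (· ∈ s) ?_)
      funext i k
      change ((Matrix.of U * Matrix.of V)ᵀ * Matrix.of U) i k = V k i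
      rw [Matrix.transpose_mul, Matrix.mul_assoc, hU, Matrix.mul_one]
      rfl
  rw [← e1, e2]

end unique

section

variable {law : ∀ N : ℕ, Measure (Fin N → Fin N → ℝ)} [∀ N, IsProbabilityMeasure (law N)]

/-- Frame pressures deviate little from their means. -/
theorem frame_abs_tendsto (β α : ℝ) (hα0 : 0 ≤ α) (p : Polynomial ℝ)
    (a : ∀ N : ℕ, Fin ⌊(1 : ℝ) * N⌋₊ → ℝ) (ha : ∀ N i, |a N i| ≤ α) :
    Tendsto (fun N : ℕ => ∫ g, |ypr β (a N) (ym p g)
      - ∫ g', ypr β (a N) (ym p g') ∂gs (⌊(1 : ℝ) * N⌋₊ * N)| ∂gs (⌊(1 : ℝ) * N⌋₊ * N)) atTop (𝓝 0) := by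
  rw [Metric.tendsto_nhds]
  intro ε hε
  filter_upwards [ypr_concentrates β α hα0 p (show 0 < ε ^ 2 / 4 by positivity)] with N h
  obtain ⟨hi, hv⟩ := h (a N) (ha N)
  set F := fun g : Fin (⌊(1 : ℝ) * N⌋₊ * N) → ℝ => ypr β (a N) (ym p g)
    - ∫ g', ypr β (a N) (ym p g') ∂gs (⌊(1 : ℝ) * N⌋₊ * N)
  rw [Real.dist_eq, sub_zero, abs_of_nonneg (integral_nonneg fun g => abs_nonneg _)]
  refine lt_of_le_of_lt (integral_mono_of_nonneg (ae_of_all _ fun g => abs_nonneg _)
    ((hi.div_const ε).fun_add (integrable_const (ε / 4))) (ae_of_all _ fun g => ?_)) ?_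
  · simp only
    rw [div_add' _ _ _ hε.ne', le_div_iff₀ hε]
    nlinarith [sq_nonneg (|F g| - ε / 2), sq_abs (F g)]
  · rw [integral_add (hi.div_const ε) (integrable_const _), integral_div, integral_const, probReal_univ,
      one_smul]
    have : (∫ g, F g ^ 2 ∂gs (⌊(1 : ℝ) * N⌋₊ * N)) / ε ≤ ε / 4 := by
      rw [div_le_iff₀ hε]; nlinarith
    linarith

theorem sum_floor_cast {N : ℕ} (h : ⌊(1 : ℝ) * N⌋₊ = N) (a : Fin N → ℝ) (k : ℕ) :
    ∑ i, a (Fin.cast h i) ^ k = ∑ i, a i ^ k :=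
  Fintype.sum_equiv (finCongr h) _ _ fun i => rfl

/-- A spectrum close to the given one with almost deterministic pressure. -/
theorem frame_level (hlaw : ∀ N, LeftInv (law N)) (β : ℝ) {α : ℝ} (hα0 : 0 ≤ α)
    (a : ∀ N : ℕ, Fin N → ℝ) (ha : ∀ N i, 0 ≤ a N i ∧ a N i ≤ α) {ε : ℝ} (hε : 0 < ε) :
    ∀ᶠ N : ℕ in atTop, ∃ (l : Fin N → ℝ) (c : ℝ), (∀ i, 0 ≤ l i) ∧
      (∀ t, (∀ i, a N i ≤ t) → ∀ i, l i ≤ t) ∧
      (∀ k : ℕ, |∑ i, l i ^ k - ∑ i, a N i ^ k| ≤ k * α ^ k * (ε * N)) ∧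
      ∫ U, |pr β l U - c| ∂law N ≤ ε := by
  obtain ⟨m, ν, hν, hm, hlim, hmom, hsupp, -⟩ := exists_mp (α := (1 : ℝ)) one_pos
  have h4 : (1 + √(1 : ℝ)) ^ 2 = 4 := by norm_num
  rw [h4] at hsupp
  obtain ⟨δ, hδ, hδ', hcut⟩ := exists_cut hm hmom hsupp hε
  obtain ⟨p, hp⟩ := exists_root_poly hδ hδ'
  have hfl : ∀ N : ℕ, ⌊(1 : ℝ) * N⌋₊ = N := fun N => by simp
  set b : ∀ N : ℕ, Fin ⌊(1 : ℝ) * N⌋₊ → ℝ := fun N i => a N (Fin.cast (hfl N) i)
  have hb : ∀ N i, |b N i| ≤ α := fun N i => by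
    rw [abs_of_nonneg (ha N _).1]; exact (ha N _).2
  set c : ℕ → ℝ := fun N => ∫ g, ypr β (b N) (ym p g) ∂gs (⌊(1 : ℝ) * N⌋₊ * N)
  have hfd : ∀ N : ℕ, 0 < N → _ := fun N hN => fdev_facts (β := β) hN (c N) (hb N) hα0 p (hlaw N)
  obtain ⟨G, x, hk, htop, hbot, hrep, hD⟩ := realise one_pos hm hlim
    (fun N => fdev (law N) β (c N) (b N) p) (fun N g => integral_nonneg fun U => abs_nonneg _)
    ((eventually_gt_atTop 0).mono fun N hN => (hfd N hN).1)
    ((frame_abs_tendsto β α hα0 p b hb).congr' ((eventually_gt_atTop 0).mono fun N hN =>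
      (hfd N hN).2.1.symm))
  have htop5 : ∀ᶠ N in atTop, ∀ i, x N i ≤ 5 := by
    filter_upwards [htop 1 one_pos] with N h i
    linarith [h i]
  have hemp := empTo_of_moments (C := 5) (hsupp.mono fun y hy => ⟨hy.1, by linarith [hy.2]⟩) hmom
    (l := x) (by filter_upwards [htop5, hbot] with N h1 h2 using fun i => ⟨h2 i, h1 i⟩) hk
  have hramp := hemp _ (continuous_ramp δ δ)
    ⟨1, fun y => by rw [abs_of_nonneg (ramp_mem _ _ y).1]; exact (ramp_mem _ _ y).2⟩
  filter_upwards [eventually_gt_atTop 0, htop5, hbot, hD.eventually (gt_mem_nhds hε),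
    hramp.eventually (gt_mem_nhds (show ∫ y, ramp δ δ y ∂ν < ε - 13 * δ by linarith))]
    with N hN h5 h0 hDN hrN
  have hN' : (0 : ℝ) < N := by exact_mod_cast hN
  have : Nonempty (Fin N) := Fin.pos_iff_nonempty.1 hN
  obtain ⟨Q, hQ, hg⟩ := hrep N hN
  set A := (univ : Finset (Fin N)).sup' univ_nonempty (a N)
  have hA : ∀ i, a N i ≤ A := fun i => le_sup' (a N) (mem_univ i)
  have hA0 : 0 ≤ A := (ha N (Classical.arbitrary _)).1.trans (hA _)
  have hAα : A ≤ α := sup'_le _ _ fun i _ => (ha N i).2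
  have hq : ∀ j, x N j ∈ Set.Icc (0 : ℝ) 6 := fun j => ⟨h0 j, by linarith [h5 j]⟩
  obtain ⟨P, l, hP, hJ, hl, hmo⟩ := frame_spectrum (hfl N) hN p hQ hg
    (fun j => ⟨h0 j, (hp _ (hq j)).1⟩) (a := b N) (fun i => ⟨(ha N _).1, hA _⟩) hA0
  refine ⟨l, c N, fun i => (hl i).1, fun t ht i => (hl i).2.trans (sup'_le _ _ fun i _ => ht i),
    fun k => ?_, ?_⟩
  · have hs : ∑ i, b N i ^ k = ∑ i, a N i ^ k := sum_floor_cast (hfl N) (a N) k
    have h := hmo k
    rw [hs] at h
    refine h.trans (mul_le_mul (mul_le_mul_of_nonneg_left (pow_le_pow_left₀ hA0 hAα k) (Nat.cast_nonneg k))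
      ?_ (Finset.sum_nonneg fun j _ => sub_nonneg.2 (hp _ (hq j)).1) (by positivity))
    refine (Finset.sum_le_sum fun j _ => (hp _ (hq j)).2).trans ?_
    rw [div_lt_iff₀ hN'] at hrN
    rw [Finset.sum_add_distrib, Finset.sum_const, Finset.card_univ, Fintype.card_fin, nsmul_eq_mul]
    linarith
  · rw [← (hfd N hN).2.2 (G N) P l hP hJ]
    exact hDN.le

theorem pr_shift {N : ℕ} (hN : 0 < N) {U : Fin N → Fin N → ℝ} (hU : Good U) (β c : ℝ) (a : Fin N → ℝ) :
    pr β (fun i => a i + c) U = pr β a U + β / 2 * c := by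
  have hN' : (N : ℝ) ≠ 0 := by exact_mod_cast hN.ne'
  have hw : ∀ σ, wgt β (fun i => a i + c) U σ = Real.exp (β / 2 * c * N) * wgt β a U σ := fun σ => by
    simp only [wgt, ← Real.exp_add, add_mul, Finset.sum_add_distrib, ← Finset.mul_sum, hU σ]
    ring_nf
  simp only [pr, hw, ← Finset.mul_sum]
  rw [mul_left_comm, Real.log_mul (Real.exp_pos _).ne' (mul_pos (by positivity) (wsum_pos a U)).ne',
    Real.log_exp]
  field_simp
  ring

variable (hgood : ∀ N, ∀ᵐ U ∂law N, Good U)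
  (hperm : ∀ N (τ : Equiv.Perm (Fin N)), (law N).map (rowPerm τ) = law N)
include hgood hperm

/-- An almost deterministic pressure for one sequence of spectra is one for all. -/
theorem transfer {μ : Measure ℝ} [IsProbabilityMeasure μ] {e R β : ℝ} (hβ : 0 ≤ β)
    (he : ∀ η, 0 < η → 0 < μ (Set.Ioi (e - η))) {l m : ∀ N : ℕ, Fin N → ℝ} (hl : Spec μ e R l)
    (hm : Spec μ e R m) {c : ℕ → ℝ}
    (hc : Tendsto (fun N => ∫ U, |pr β (l N) U - c N| ∂law N) atTop (𝓝 0)) :
    Tendsto (fun N => ∫ U, |pr β (m N) U - c N| ∂law N) atTop (𝓝 0) := by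
  have hs : ∀ x : ∀ N : ℕ, Fin N → ℝ, Spec μ e R x → Spec μ e R fun N => x N ∘ Tuple.sort (x N) :=
    fun x hx => ⟨fun f hf hb => by
        simpa [Function.comp_def, Equiv.sum_comp (Tuple.sort (x _)) fun i => f (x _ i)] using hx.1 f hf hb,
      fun η hη => (hx.2.1 η hη).mono fun N h i => h _, hx.2.2.mono fun N h i => h _⟩
  have h1 := compare_tendsto hgood hperm hβ he (hs l hl) (hs m hm)
    (fun N => Tuple.monotone_sort (l N)) fun N => Tuple.monotone_sort (m N)
  have h2 := compare_tendsto hgood hperm hβ he (hs m hm) (hs l hl)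
    (fun N => Tuple.monotone_sort (m N)) fun N => Tuple.monotone_sort (l N)
  rw [Metric.tendsto_nhds]
  intro ε hε
  filter_upwards [h1 (ε / 4) (by positivity), h2 (ε / 4) (by positivity), eventually_gt_atTop 0,
    hc.eventually (gt_mem_nhds (show 0 < ε / 4 by positivity))] with N a1 a2 hN hcN
  rw [Real.dist_eq, sub_zero, abs_of_nonneg (integral_nonneg fun U => abs_nonneg _)]
  have hF : Continuous fun y : ℝ => |y - c N| := (continuous_id.sub continuous_const).abs
  rw [← integral_pr_perm hperm hF (Tuple.sort (l N)) (l N)] at hcN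
  rw [← integral_pr_perm hperm hF (Tuple.sort (m N)) (m N)]
  have il := integrable_pr (β := β) (hgood N) hN (l N ∘ Tuple.sort (l N))
  have im := integrable_pr (β := β) (hgood N) hN (m N ∘ Tuple.sort (m N))
  have i0 := (il.sub' (integrable_const (c N))).abs
  have i1 : Integrable (fun U => max (pr β (m N ∘ Tuple.sort (m N)) U
      - pr β (l N ∘ Tuple.sort (l N)) U) 0) (law N) := (im.sub il).sup (integrable_const 0)
  have i2 : Integrable (fun U => max (pr β (l N ∘ Tuple.sort (l N)) U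
      - pr β (m N ∘ Tuple.sort (m N)) U) 0) (law N) := (il.sub im).sup (integrable_const 0)
  refine lt_of_le_of_lt (integral_mono (im.sub' (integrable_const (c N))).abs
    ((i0.fun_add i1).fun_add i2) fun U => ?_) ?_
  · set u := pr β (m N ∘ Tuple.sort (m N)) U
    set v := pr β (l N ∘ Tuple.sort (l N)) U
    refine abs_le.2 ⟨?_, ?_⟩ <;>
      linarith [le_max_left (u - v) 0, le_max_left (v - u) 0, le_max_right (u - v) 0,
        le_max_right (v - u) 0, le_abs_self (v - c N), neg_abs_le (v - c N)]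
  · rw [integral_add (i0.fun_add i1) i2, integral_add i0 i1]
    linarith

omit hgood hperm in
/-- A spectrum sequence with the same limit and almost deterministic pressure. -/
theorem exists_approx (hlaw : ∀ N, LeftInv (law N)) {μ : Measure ℝ} {e R : ℝ} (β : ℝ)
    {lam : ∀ N : ℕ, Fin N → ℝ} (hlam : Spec μ e R lam) :
    ∃ (l : ∀ N : ℕ, Fin N → ℝ) (c : ℕ → ℝ), Spec μ e R l ∧
      Tendsto (fun N => ∫ U, |pr β (l N) U - c N| ∂law N) atTop (𝓝 0) := by
  classical
  set α := max (e + 1 + R) 0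
  have hα0 : 0 ≤ α := le_max_right _ _
  set a : ∀ N : ℕ, Fin N → ℝ := fun N i => min (max (lam N i + R) 0) α
  have ha : ∀ N i, 0 ≤ a N i ∧ a N i ≤ α := fun N i =>
    ⟨le_min (le_max_right _ _) hα0, min_le_right _ _⟩
  have haeq : ∀ᶠ N in atTop, ∀ i, a N i = lam N i + R := by
    filter_upwards [hlam.2.1 1 one_pos, hlam.2.2] with N h1 h2 i
    simp only [a]
    rw [max_eq_left (by linarith [h2 i]), min_eq_left (by linarith [h1 i, le_max_left (e + 1 + R) 0])]
  set P : ∀ N : ℕ, ℕ → (Fin N → ℝ) × ℝ → Prop := fun N j q =>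
    (∀ i : Fin N, 0 ≤ q.1 i) ∧ (∀ t, (∀ i, a N i ≤ t) → ∀ i, q.1 i ≤ t) ∧
      (∀ k : ℕ, |∑ i, q.1 i ^ k - ∑ i, a N i ^ k| ≤ k * α ^ k * (1 / ((j : ℝ) + 1) * N)) ∧
      ∫ U, |pr β q.1 U - q.2| ∂law N ≤ 1 / ((j : ℝ) + 1)
  set J : ℕ → ℕ := fun N => Nat.findGreatest (fun j => ∃ q, P N j q) N
  have hJ : ∀ j, ∀ᶠ N in atTop, j ≤ J N ∧ ∃ q, P N (J N) q := fun j => by
    filter_upwards [frame_level hlaw β hα0 a ha (show (0 : ℝ) < 1 / ((j : ℝ) + 1) by positivity),
      eventually_ge_atTop j] with N hN hj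
    obtain ⟨l, c, h⟩ := hN
    exact ⟨Nat.le_findGreatest hj ⟨(l, c), h⟩,
      Nat.findGreatest_spec (P := fun j => ∃ q, P N j q) hj ⟨(l, c), h⟩⟩
  have hch : ∀ N, ∃ q, (∃ q', P N (J N) q') → P N (J N) q := fun N => by
    by_cases h : ∃ q', P N (J N) q'
    · obtain ⟨q, hq⟩ := h; exact ⟨q, fun _ => hq⟩
    · exact ⟨(0, 0), fun h' => absurd h' h⟩
  choose q hq using hch
  have hsmall : ∀ ε : ℝ, 0 < ε → ∀ᶠ N in atTop, (∀ i, 0 ≤ (q N).1 i) ∧
      (∀ t, (∀ i, a N i ≤ t) → ∀ i, (q N).1 i ≤ t) ∧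
      (∀ k : ℕ, |∑ i, (q N).1 i ^ k - ∑ i, a N i ^ k| ≤ k * α ^ k * (ε * N)) ∧
      ∫ U, |pr β (q N).1 U - (q N).2| ∂law N ≤ ε := fun ε hε => by
    obtain ⟨j, hj⟩ := exists_nat_one_div_lt hε
    filter_upwards [hJ j] with N hN
    obtain ⟨h1, h2, h3, h4⟩ := hq N hN.2
    have hle : 1 / ((J N : ℝ) + 1) ≤ ε :=
      le_trans (one_div_le_one_div_of_le (by positivity) (by
        have : (j : ℝ) ≤ J N := by exact_mod_cast hN.1
        linarith)) hj.le
    exact ⟨h1, h2, fun k => (h3 k).trans (mul_le_mul_of_nonneg_left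
      (mul_le_mul_of_nonneg_right hle (Nat.cast_nonneg N)) (by positivity)), h4.trans hle⟩
  have hgood' : ∀ N, ∀ᵐ U ∂law N, Good U := fun N => (hlaw N).1.mono fun U hU => good_of_orth hU
  refine ⟨fun N i => (q N).1 i + -R, fun N => (q N).2 + β / 2 * -R, ⟨fun f hf hb => ?_, fun η hη => ?_, ?_⟩, ?_⟩
  · rw [Metric.tendsto_nhds]
    intro ε hε
    obtain ⟨p, hp⟩ := exists_polynomial_near_of_continuousOn 0 α (fun y => f (y + -R))
      (hf.comp (continuous_id.add continuous_const)).continuousOn (ε / 8) (by positivity)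
    set S := ∑ k ∈ range (p.natDegree + 1), |p.coeff k| * (k * α ^ k)
    have hS : 0 ≤ S := Finset.sum_nonneg fun k _ => by positivity
    filter_upwards [haeq, hsmall (ε / (4 * (S + 1))) (by positivity), eventually_gt_atTop 0,
      (hlam.1 f hf hb).eventually (Metric.ball_mem_nhds _ (show 0 < ε / 4 by positivity))]
      with N hN hsN hN0 hball
    obtain ⟨h1, h2, h3, -⟩ := hsN
    have hN' : (0 : ℝ) < N := by exact_mod_cast hN0
    simp only [Metric.mem_ball, Real.dist_eq] at hball ⊢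
    have hin : ∀ i, (q N).1 i ∈ Set.Icc 0 α ∧ a N i ∈ Set.Icc 0 α := fun i =>
      ⟨⟨h1 i, h2 α (fun i => (ha N i).2) i⟩, ha N i⟩
    have hpd : |∑ i, p.eval ((q N).1 i) - ∑ i, p.eval (a N i)| ≤ ε / 4 * N := by
      simp only [Polynomial.eval_eq_sum_range]
      rw [Finset.sum_comm, Finset.sum_comm (f := fun i k => p.coeff k * a N i ^ k), ← Finset.sum_sub_distrib]
      simp only [← Finset.mul_sum, ← mul_sub]
      refine (Finset.abs_sum_le_sum_abs _ _).trans ((Finset.sum_le_sum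
        (g := fun k : ℕ => |p.coeff k| * (k * α ^ k) * (ε / (4 * (S + 1)) * N)) fun k _ => ?_).trans ?_)
      · rw [abs_mul, mul_assoc]
        exact mul_le_mul_of_nonneg_left (h3 k) (abs_nonneg _)
      · rw [← Finset.sum_mul, ← mul_assoc, mul_div_assoc']
        refine mul_le_mul_of_nonneg_right ?_ hN'.le
        rw [div_le_iff₀ (by positivity)]
        nlinarith
    have hg : ∀ y : Fin N → ℝ, (∀ i, y i ∈ Set.Icc 0 α) →
        |∑ i, f (y i + -R) - ∑ i, p.eval (y i)| ≤ ε / 8 * N := fun y hy => by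
      rw [← Finset.sum_sub_distrib]
      refine (Finset.abs_sum_le_sum_abs _ _).trans ((Finset.sum_le_sum (g := fun _ => ε / 8)
        fun i _ => ?_).trans_eq (by simp [mul_comm]))
      rw [abs_sub_comm]; exact (hp _ (hy i)).le
    have g1 := abs_le.1 (hg _ fun i => (hin i).1)
    have g2 := abs_le.1 (hg _ fun i => (hin i).2)
    have g3 := abs_le.1 hpd
    have e0 : ∑ i, f (a N i + -R) = ∑ i, f (lam N i) :=
      Finset.sum_congr rfl fun i _ => by rw [hN i]; ring_nf
    rw [e0] at g2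
    have hb' := abs_lt.1 hball
    have e1 : |(∑ i, f ((q N).1 i + -R)) / N - (∑ i, f (lam N i)) / N| ≤ ε / 2 := by
      rw [← sub_div, abs_div, abs_of_pos hN', div_le_iff₀ hN']
      exact abs_le.2 ⟨by linarith, by linarith⟩
    have := abs_le.1 e1
    rw [abs_lt]; constructor <;> linarith
  · filter_upwards [haeq, hlam.2.1 η hη, hsmall 1 one_pos] with N h1 h2 h3 i
    have := h3.2.1 (e + η + R) (fun i => by rw [h1 i]; linarith [h2 i]) i
    linarith
  · filter_upwards [hsmall 1 one_pos] with N h i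
    linarith [h.1 i]
  · rw [Metric.tendsto_nhds]
    intro ε hε
    filter_upwards [hsmall (ε / 2) (by positivity), eventually_gt_atTop 0] with N h hN
    rw [Real.dist_eq, sub_zero, abs_of_nonneg (integral_nonneg fun U => abs_nonneg _),
      integral_congr_ae (g := fun U => |pr β (q N).1 U - (q N).2|) ?_]
    · linarith [h.2.2.2]
    · filter_upwards [hgood' N] with U hU
      simp only [pr_shift hN hU]
      ring_nf

/-- The mean is an almost sure equivalent. -/
theorem mean_deviation {μ : Measure ℝ} [IsProbabilityMeasure μ] {e R β : ℝ} (hβ : 0 ≤ β)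
    (he : ∀ η, 0 < η → 0 < μ (Set.Ioi (e - η))) (hlaw : ∀ N, LeftInv (law N))
    {lam : ∀ N : ℕ, Fin N → ℝ} (hlam : Spec μ e R lam) :
    Tendsto (fun N => ∫ U, |pr β (lam N) U - ∫ V, pr β (lam N) V ∂law N| ∂law N) atTop (𝓝 0) := by
  obtain ⟨l, c, hl, hc⟩ := exists_approx hlaw β hlam
  have h := transfer hgood hperm hβ he hl hlam hc
  refine squeeze_zero' (Eventually.of_forall fun N => integral_nonneg fun U => abs_nonneg _) ?_
    (by simpa using h.const_mul 2)
  filter_upwards [eventually_gt_atTop 0] with N hN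
  have i := integrable_pr (β := β) (hgood N) hN (lam N)
  have h1 : |∫ V, pr β (lam N) V ∂law N - c N| ≤ ∫ V, |pr β (lam N) V - c N| ∂law N := by
    refine le_trans (le_of_eq ?_) abs_integral_le_integral_abs
    rw [integral_sub i (integrable_const _)]; simp
  refine (integral_mono (i.sub' (integrable_const _)).abs
    (((i.sub' (integrable_const (c N))).abs).fun_add (integrable_const _))
    (g := fun U => |pr β (lam N) U - c N| + |∫ V, pr β (lam N) V ∂law N - c N|) fun U => ?_).trans ?_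
  · exact le_of_le_of_eq (abs_sub_le _ (c N) _) (by rw [abs_sub_comm (c N)])
  · rw [integral_add (i.sub' (integrable_const _)).abs (integrable_const _)]
    simp only [integral_const, probReal_univ, one_smul]
    linarith

end

/-- At every temperature the pressure has a deterministic equivalent depending only on `μ`. -/
theorem deterministic_equivalent (μ : Measure ℝ) [IsProbabilityMeasure μ] (e β : ℝ) (hβ : 0 ≤ β)
    (he : ∀ η, 0 < η → 0 < μ (Set.Ioi (e - η))) :
    ∃ A : ℕ → ℝ, ∀ (law : ∀ N : ℕ, Measure (Fin N → Fin N → ℝ)),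
      (∀ N, IsProbabilityMeasure (law N)) → (∀ N, LeftInv (law N)) →
      ∀ (R : ℝ) (lam : ∀ N : ℕ, Fin N → ℝ), Spec μ e R lam →
        Tendsto (fun N => ∫ U, (pr β (lam N) U - A N) ^ 2 ∂law N) atTop (𝓝 0) := by
  classical
  by_cases hex : ∃ (law : ∀ N : ℕ, Measure (Fin N → Fin N → ℝ)) (R : ℝ) (lam : ∀ N : ℕ, Fin N → ℝ),
      (∀ N, IsProbabilityMeasure (law N)) ∧ (∀ N, LeftInv (law N)) ∧ Spec μ e R lam
  swap
  · exact ⟨0, fun law hp hlaw R lam hlam => absurd ⟨law, R, lam, hp, hlaw, hlam⟩ hex⟩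
  obtain ⟨law₀, R₀, lam₀, hp₀, hlaw₀, hlam₀⟩ := hex
  refine ⟨fun N => ∫ V, pr β (lam₀ N) V ∂law₀ N, fun law hp hlaw R lam hlam => ?_⟩
  obtain rfl : law = law₀ := funext fun N => leftInv_unique (hlaw N) (hlaw₀ N)
  set A : ℕ → ℝ := fun N => ∫ V, pr β (lam₀ N) V ∂law N
  set R' := max R R₀
  have hgood : ∀ N, ∀ᵐ U ∂law N, Good U := fun N => (hlaw N).1.mono fun U hU => good_of_orth hU
  have hperm := fun N (τ : Equiv.Perm (Fin N)) => leftInv_perm (hlaw N) τ
  have hs : Spec μ e R' lam :=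
    ⟨hlam.1, hlam.2.1, hlam.2.2.mono fun N h i => by linarith [h i, le_max_left R R₀]⟩
  have hs₀ : Spec μ e R' lam₀ :=
    ⟨hlam₀.1, hlam₀.2.1, hlam₀.2.2.mono fun N h i => by linarith [h i, le_max_right R R₀]⟩
  have hlim := transfer hgood hperm hβ he hs₀ hs (mean_deviation hgood hperm hβ he hlaw hs₀)
  set C := max R' (e + 1)
  refine squeeze_zero' (Eventually.of_forall fun N => integral_nonneg fun U => sq_nonneg _) ?_
    (by simpa using hlim.const_mul (β * C))
  filter_upwards [eventually_gt_atTop 0, hs.2.1 1 one_pos, hs.2.2, hs₀.2.1 1 one_pos, hs₀.2.2]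
    with N hN t b t₀ b₀
  have hb : ∀ U, Good U → ∀ x : Fin N → ℝ, (∀ i, x i ≤ e + 1) → (∀ i, -R' ≤ x i) →
      |pr β x U| ≤ β / 2 * C := fun U hU x h1 h2 => by
    refine (abs_pr_le (β := β) hN hU (C := C) fun i =>
      abs_le.2 ⟨by linarith [h2 i, le_max_left R' (e + 1)], (h1 i).trans (le_max_right _ _)⟩).trans_eq ?_
    rw [abs_of_nonneg hβ]
  have hA : |A N| ≤ β / 2 * C := by
    rw [← Real.norm_eq_abs]
    refine (norm_integral_le_of_norm_le_const (C := β / 2 * C) ((hgood N).mono fun U hU => ?_)).trans_eq (by simp)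
    rw [Real.norm_eq_abs]; exact hb U hU _ t₀ b₀
  rw [← integral_const_mul]
  refine integral_mono_of_nonneg (ae_of_all _ fun U => sq_nonneg _)
    (((integrable_pr (hgood N) hN (lam N)).sub' (integrable_const (A N))).abs.const_mul _)
    ((hgood N).mono fun U hU => ?_)
  have h1 := hb U hU _ t b
  simp only
  rw [← sq_abs, pow_two]
  exact mul_le_mul_of_nonneg_right ((abs_sub _ _).trans (by linarith)) (abs_nonneg _)

end Vale.Agent.P166
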