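import Vale.Agent.P166.Tame

/-!
Pisier's inequality: the mean squared difference of a function at two independent Gaussian
vectors is at most a constant times its mean squared derivative.
-/

open MeasureTheory ProbabilityTheory Filter Topology Set WithLp

namespace Vale.Agent.P166

variable {n : ℕ}

/-- Rotation of a pair of vectors by the angle `θ`. -/
noncomputable def pairRot (θ : ℝ) (q : (Fin n → ℝ) × (Fin n → ℝ)) : (Fin n → ℝ) × (Fin n → ℝ) :=
  (Real.cos θ • q.1 + Real.sin θ • q.2, -Real.sin θ • q.1 + Real.cos θ • q.2)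

theorem measurePreserving_pairRot (θ : ℝ) :
    MeasurePreserving (pairRot (n := n) θ) ((gs n).prod (gs n)) ((gs n).prod (gs n)) := by
  have hm : Measurable (pairRot (n := n) θ) := by unfold pairRot; fun_prop
  refine ⟨hm, ?_⟩
  set e := MeasurableEquiv.toLp 2 (Fin n → ℝ)
  have h0 : (gs n).map e = stdGaussian (EuclideanSpace ℝ (Fin n)) := map_pi_eq_stdGaussian
  have hrot := IsGaussian.map_rotation_eq_self_of_forall_strongDual_eq_zero
    (μ := stdGaussian (EuclideanSpace ℝ (Fin n))) integral_strongDual_stdGaussian θ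
  rw [← h0, Measure.map_prod_map _ _ e.measurable e.measurable,
    Measure.map_map (by fun_prop) (e.measurable.prodMap e.measurable)] at hrot
  have hcomm : ⇑(ContinuousLinearMap.rotation θ : (EuclideanSpace ℝ (Fin n) × EuclideanSpace ℝ (Fin n)) →L[ℝ] _)
      ∘ Prod.map e e = Prod.map e e ∘ pairRot θ := by
    funext q
    simp only [Function.comp_apply, ContinuousLinearMap.rotation_apply, Prod.map, pairRot, e]
    rfl
  rw [hcomm, ← Measure.map_map (e.measurable.prodMap e.measurable) hm] at hrot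
  exact (e.prodCongr e).map_measurableEquiv_injective hrot

theorem env_nonneg (g : Fin n → ℝ) : 0 ≤ env g := zero_le_one.trans (one_le_env g)

theorem env_combo (g h : Fin n → ℝ) {c s : ℝ} (hcs : c ^ 2 + s ^ 2 = 1) :
    env (c • g + s • h) ≤ env g * env h := by
  unfold env
  rw [← Finset.prod_mul_distrib]
  refine Finset.prod_le_prod (fun i _ => by positivity) fun i _ => ?_
  simp only [Pi.add_apply, Pi.smul_apply, smul_eq_mul]
  nlinarith [sq_nonneg (c * h i - s * g i), sq_nonneg (g i * h i)]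

theorem integrable_env_prod (k l : ℕ) :
    Integrable (fun q : (Fin n → ℝ) × (Fin n → ℝ) => env q.1 ^ k * env q.2 ^ l) ((gs n).prod (gs n)) :=
  (integrable_env_pow k).mul_prod (integrable_env_pow l)

/-- A linear functional bounded by `B ^ (1/2)` times the Euclidean norm has second moment at
most `B`. -/
theorem lin_second_moment (v : Fin n → ℝ) {B : ℝ} (hB : 0 ≤ B)
    (h : ∀ x : Fin n → ℝ, (∑ i, x i * v i) ^ 2 ≤ B * ∑ i, x i ^ 2) :
    ∫ g, (∑ i, g i * v i) ^ 2 ∂gs n ≤ B := by
  set c := ∑ i, v i ^ 2 with hcdef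
  have hc : 0 ≤ c := Finset.sum_nonneg fun i _ => sq_nonneg _
  rcases hc.eq_or_lt with h0 | h0
  · have hv : ∀ i, v i = 0 := fun i => by
      have := (Finset.sum_eq_zero_iff_of_nonneg fun j _ => sq_nonneg (v j)).1 h0.symm i (Finset.mem_univ i)
      exact pow_eq_zero_iff two_ne_zero |>.1 this
    simpa [hv] using hB
  · have hu : ∑ i, (v i / √c) ^ 2 = 1 := by
      simp only [div_pow, Real.sq_sqrt hc, ← Finset.sum_div]
      exact div_self h0.ne'
    have e : ∀ g : Fin n → ℝ, (∑ i, g i * v i) ^ 2 = c * (∑ i, g i * (v i / √c)) ^ 2 := fun g => by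
      have : ∑ i, g i * (v i / √c) = (∑ i, g i * v i) / √c := by
        rw [Finset.sum_div]; exact Finset.sum_congr rfl fun i _ => (mul_div_assoc _ _ _).symm
      rw [this, div_pow, Real.sq_sqrt hc]
      field_simp
    simp only [e]
    rw [integral_const_mul, sq_lin _ hu, mul_one]
    have h2 := h v
    simp only [← pow_two] at h2
    rw [← hcdef] at h2
    nlinarith

/-- The squared increment of a function along an interval. -/
theorem sq_increment_le {f d : ℝ → ℝ} {L : ℝ} (hL : 0 < L) (hd : Continuous d)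
    (hf : ∀ θ, HasDerivAt f (d θ) θ) :
    (f L - f 0) ^ 2 ≤ L * ∫ θ in Ioc 0 L, d θ ^ 2 := by
  rw [← intervalIntegral.integral_eq_sub_of_hasDerivAt (fun θ _ => hf θ) (hd.intervalIntegrable _ _),
    intervalIntegral.integral_of_le hL.le]
  set ν : Measure ℝ := volume.restrict (Ioc 0 L)
  have hi : Integrable d ν := hd.integrableOn_Ioc
  have hi2 : Integrable (fun θ => d θ ^ 2) ν := (hd.pow 2).integrableOn_Ioc
  have hν : ν.real Set.univ = L := by simp [ν, measureReal_def, hL.le]
  set I := ∫ θ, d θ ∂ν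
  set J := ∫ θ, d θ ^ 2 ∂ν
  have key : 0 ≤ ∫ θ, (L * d θ - I) ^ 2 ∂ν := integral_nonneg fun θ => sq_nonneg _
  have e : ∫ θ, (L * d θ - I) ^ 2 ∂ν = L ^ 2 * J - 2 * L * I * I + L * I ^ 2 := by
    simp only [fun θ => (by ring : (L * d θ - I) ^ 2 = L ^ 2 * d θ ^ 2 - 2 * L * I * d θ + I ^ 2)]
    rw [integral_add ((hi2.const_mul _).sub' (hi.const_mul _)) (integrable_const _),
      integral_sub (hi2.const_mul _) (hi.const_mul _), integral_const_mul, integral_const_mul,
      integral_const, hν, smul_eq_mul]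
  rw [e] at key
  have : L * I ^ 2 ≤ L * (L * J) := by nlinarith
  exact le_of_mul_le_mul_left this hL

/-- The variance is at most the mean squared difference at two independent points. -/
theorem variance_le_diff {F : (Fin n → ℝ) → ℝ} (hFi : Integrable F (gs n))
    (hFi2 : Integrable (fun g => F g ^ 2) (gs n)) :
    Integrable (fun q : (Fin n → ℝ) × (Fin n → ℝ) => (F q.2 - F q.1) ^ 2) ((gs n).prod (gs n)) ∧
      ∫ g, (F g - ∫ h, F h ∂gs n) ^ 2 ∂gs n
        ≤ ∫ q, (F q.2 - F q.1) ^ 2 ∂(gs n).prod (gs n) := by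
  have hdiff : Integrable (fun q : (Fin n → ℝ) × (Fin n → ℝ) => (F q.2 - F q.1) ^ 2)
      ((gs n).prod (gs n)) := by
    simp only [fun q : (Fin n → ℝ) × (Fin n → ℝ) =>
      (by ring : (F q.2 - F q.1) ^ 2 = 1 * F q.2 ^ 2 - 2 * (F q.1 * F q.2) + F q.1 ^ 2 * 1)]
    exact (((integrable_const (1 : ℝ)).mul_prod hFi2).sub' ((hFi.mul_prod hFi).const_mul 2)).fun_add
      (hFi2.mul_prod (integrable_const (1 : ℝ)))
  refine ⟨hdiff, ?_⟩
  rw [integral_prod _ hdiff]
  set c := ∫ h, F h ∂gs n with hc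
  set V := ∫ h, F h ^ 2 ∂gs n with hV
  have e : ∀ x, ∫ g, (F g - x) ^ 2 ∂gs n = V - 2 * x * c + x ^ 2 := fun x => by
    simp only [fun g => (by ring : (F g - x) ^ 2 = F g ^ 2 - 2 * x * F g + x ^ 2)]
    rw [integral_add (hFi2.sub' (hFi.const_mul _)) (integrable_const _),
      integral_sub hFi2 (hFi.const_mul _), integral_const_mul, integral_const, probReal_univ, one_smul]
  simp only [e]
  rw [integral_add ((integrable_const _).sub' ((hFi.const_mul 2).mul_const c)) hFi2,
    integral_sub (integrable_const _) ((hFi.const_mul 2).mul_const c), integral_const, probReal_univ,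
    one_smul, integral_mul_const, integral_const_mul, ← hc, ← hV]
  have hpos : 0 ≤ ∫ g, (F g - c) ^ 2 ∂gs n := integral_nonneg fun h => sq_nonneg _
  rw [e] at hpos
  nlinarith

/-- Pisier's inequality. -/
theorem pisier {F : (Fin n → ℝ) → ℝ} {D : (Fin n → ℝ) → (Fin n → ℝ) → ℝ} {B : (Fin n → ℝ) → ℝ}
    (hFc : Continuous F) {CF : ℝ} {kF : ℕ} (hFb : ∀ g, |F g| ≤ CF * env g ^ kF)
    (hDc : Continuous fun q : (Fin n → ℝ) × (Fin n → ℝ) => D q.1 q.2)
    {CD : ℝ} {kD : ℕ} (hDb : ∀ g h, |D g h| ≤ CD * (env g ^ kD * env h ^ kD))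
    (hder : ∀ g h θ, HasDerivAt (fun r => F (pairRot r (g, h)).1)
      (D (pairRot θ (g, h)).1 (pairRot θ (g, h)).2) θ)
    (hBi : Integrable B (gs n)) (hB : ∀ g, ∫ h, D g h ^ 2 ∂gs n ≤ B g) :
    ∫ g, (F g - ∫ h, F h ∂gs n) ^ 2 ∂gs n ≤ (Real.pi / 2) ^ 2 * ∫ g, B g ∂gs n := by
  set P := (gs n).prod (gs n)
  set ν : Measure ℝ := volume.restrict (Ioc 0 (Real.pi / 2))
  have hpi : (0 : ℝ) < Real.pi / 2 := by positivity
  set H : (Fin n → ℝ) × (Fin n → ℝ) → ℝ := fun q => D q.1 q.2 ^ 2 with hHdef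
  have hHc : Continuous H := hDc.pow 2
  have hHb : ∀ q, H q ≤ CD ^ 2 * (env q.1 ^ (2 * kD) * env q.2 ^ (2 * kD)) := fun q => by
    simp only [H]
    rw [← sq_abs]
    exact (pow_le_pow_left₀ (abs_nonneg _) (hDb q.1 q.2) 2).trans_eq (by ring)
  have hHi : Integrable H P := by
    refine ((integrable_env_prod (n := n) (2 * kD) (2 * kD)).const_mul (CD ^ 2)).mono'
      hHc.aestronglyMeasurable (ae_of_all _ fun q => ?_)
    rw [Real.norm_eq_abs, abs_of_nonneg (sq_nonneg _)]
    exact hHb q
  have hpr : Continuous fun r : ((Fin n → ℝ) × (Fin n → ℝ)) × ℝ => pairRot r.2 r.1 := by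
    unfold pairRot; fun_prop
  set G : ((Fin n → ℝ) × (Fin n → ℝ)) × ℝ → ℝ := fun r => H (pairRot r.2 r.1) with hGdef
  have hGi : Integrable G (P.prod ν) := by
    refine ((((integrable_env_prod (n := n) (4 * kD) (4 * kD)).const_mul (CD ^ 2)).comp_fst ν)).mono'
      (hHc.comp hpr).aestronglyMeasurable (ae_of_all _ fun r => ?_)
    rw [Real.norm_eq_abs, abs_of_nonneg (sq_nonneg _)]
    refine (hHb _).trans (mul_le_mul_of_nonneg_left ?_ (sq_nonneg _))
    have e1 := env_combo r.1.1 r.1.2 (Real.cos_sq_add_sin_sq r.2)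
    have e2 := env_combo r.1.1 r.1.2 (c := -Real.sin r.2) (s := Real.cos r.2)
      (by rw [neg_sq]; exact Real.sin_sq_add_cos_sq _)
    refine (mul_le_mul (pow_le_pow_left₀ (env_nonneg _) e1 _) (pow_le_pow_left₀ (env_nonneg _) e2 _)
      (pow_nonneg (env_nonneg _) _) (pow_nonneg (mul_nonneg (env_nonneg _) (env_nonneg _)) _)).trans_eq ?_
    ring
  have hFi : Integrable F (gs n) := ((integrable_env_pow kF).const_mul CF).mono'
    hFc.aestronglyMeasurable (ae_of_all _ hFb)
  have hFi2 : Integrable (fun g => F g ^ 2) (gs n) := by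
    refine ((integrable_env_pow (2 * kF)).const_mul (CF ^ 2)).mono' (hFc.pow 2).aestronglyMeasurable
      (ae_of_all _ fun g => ?_)
    rw [Real.norm_eq_abs, abs_pow]
    exact (pow_le_pow_left₀ (abs_nonneg _) (hFb g) 2).trans_eq (by ring)
  have hpath : ∀ q, (F q.2 - F q.1) ^ 2 ≤ Real.pi / 2 * ∫ θ, G (q, θ) ∂ν := fun q => by
    have hd : Continuous fun θ => D (pairRot θ q).1 (pairRot θ q).2 := by
      have h1 : Continuous fun θ : ℝ => pairRot θ q := by unfold pairRot; fun_prop
      exact hDc.comp h1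
    have h := sq_increment_le hpi hd (f := fun r => F (pairRot r q).1) fun θ => hder q.1 q.2 θ
    simp only [pairRot, Real.cos_pi_div_two, Real.sin_pi_div_two, Real.cos_zero, Real.sin_zero,
      zero_smul, one_smul, zero_add, add_zero] at h
    exact h
  obtain ⟨hdiff, hjen⟩ := variance_le_diff hFi hFi2
  refine hjen.trans ((integral_mono hdiff (hGi.integral_prod_left.const_mul _) hpath).trans ?_)
  rw [integral_const_mul, ← integral_prod _ hGi, integral_prod_symm _ hGi, pow_two, mul_assoc]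
  refine mul_le_mul_of_nonneg_left ?_ hpi.le
  refine (integral_mono hGi.integral_prod_right (integrable_const (∫ g, B g ∂gs n)) fun θ => ?_).trans_eq ?_
  · have e : ∫ q, G (q, θ) ∂P = ∫ q, H q ∂P := by
      simp only [P]
      conv_rhs => rw [← (measurePreserving_pairRot θ).map_eq]
      rw [integral_map (measurePreserving_pairRot θ).measurable.aemeasurable hHc.aestronglyMeasurable]
    show ∫ q, G (q, θ) ∂P ≤ _
    rw [e, integral_prod _ hHi]
    exact integral_mono hHi.integral_prod_left hBi hB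
  · rw [integral_const, smul_eq_mul]
    congr 1
    simp [ν, measureReal_def, hpi.le]

end Vale.Agent.P166
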